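import Vale.Agent.P224.S13.Z13H
import Vale.Agent.P224.S13.Z13.Pos

/-!
The certificate with a parameter in dimension 13: the inequality in `(0, 1)`.
-/

namespace Vale.Agent.P224.S13.Z13

open Vale.Agent.P224.SP Vale.Agent.P224.UE Vale.Agent.P224.POS Vale.Agent.P224.PO
  Vale.Agent.P224.SO Set Filter Real
open scoped RealInnerProductSpace Topology

noncomputable section

/-- **The inequality in `(0, 1)`.** -/
theorem hpos_lT {E : Type*} [NormedAddCommGroup E] [InnerProductSpace ℝ E] :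
    ∀ T ∈ Ioo (0 : ℝ) 1, ∀ x N y w : E, ‖x‖ = 1 → ‖N‖ = 1 → ‖y‖ = 1 → ‖w‖ = 1 →
      ⟪x, N⟫ = 0 → ⟪y, w⟫ = 0 → gS' (lT.map GT.v) T (dv x N y w 0)
        ≤ (OT.Rs 13 sT T (dv x N y w 0) + OT.Rs 13 sT T (sw9 (dv x N y w 0))) / 2 := by
  intro T hT x N y w hx hN hy hw hxN hyw
  unfold lT sT
  rw [gS'_lVE hT]
  exact hpos (κB DD) (κF c0) T hT x N y w hx hN hy hw hxN hyw

/-- the inequality in `(0, 1)` with the rows of `RoT` -/
theorem hposR_lT {r l κ : ℝ} {E : Type*} [NormedAddCommGroup E] [InnerProductSpace ℝ E] :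
    ∀ T ∈ Ioo (0 : ℝ) 1, ∀ x N y w : E, ‖x‖ = 1 → ‖N‖ = 1 → ‖y‖ = 1 → ‖w‖ = 1 →
      ⟪x, N⟫ = 0 → ⟪y, w⟫ = 0 → gS' (lT.map GT.v) T (dv x N y w 0)
        ≤ RoT r l κ sT T (dv x N y w 0) := by
  intro T hT x N y w hx hN hy hw hxN hyw
  rw [RoT_pos _ _ _ _ hT.1]
  exact hpos_lT T hT x N y w hx hN hy hw hxN hyw

end

end Vale.Agent.P224.S13.Z13
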