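import Vale.Agent.P224.OT.Def
import Vale.Agent.P224.SO.LawG
import Vale.Agent.P224.S13.SosTl

/-!
Columns of a certificate with a parameter in dimension 13: the polynomials (in `s, τ, u, v, T`)
which multiply the coefficient functions.
-/

namespace Vale.Agent.P224.S13

open Vale.Agent.P224.UE Vale.Agent.P224.POS Vale.Agent.P224.PO Vale.Agent.P224.SO Set

noncomputable section

/-- `(1 - T) (13 + T)` -/
def AT (T : ℝ) : ℝ := (1 - T) * (13 + T)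

lemma AT_pos {T : ℝ} (h0 : 0 < T) (h1 : T < 1) : 0 < AT T := by
  unfold AT
  exact mul_pos (by linarith) (by linarith)

/-- exponents of a value column: `(1 - T s)⁻ᵠ (1 - s) ^ a (t ^ i p ^ j + t ^ j p ^ i) c ^ e / 2` -/
structure VK where
  q : ℕ
  a : ℕ
  i : ℕ
  j : ℕ
  e : ℕ

/-- exponents of a row column: the family, `s ^ a (1 - T s)⁻ᵠ t ^ i` -/
structure RK where
  fam : ℕ
  a : ℕ
  q : ℕ
  i : ℕ

/-- `1 - T s` -/
def pP : PE := .sub (.c 1) (.mul (.v 4) (.v 0))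

/-- `t / √42` -/
def ptt : PE := .sub (.v 1) (.v 2)

/-- `p / √42` -/
def ppp : PE := .add (.v 1) (.v 2)

/-- `(1 - T) (13 + T)` -/
def pA : PE := .mul (.sub (.c 1) (.v 4)) (.add (.c 13) (.v 4))

/-- the derivative of `(1 - T) (13 + T)` -/
def pA' : PE := .sub (.c (-12)) (.mul (.c 2) (.v 4))

/-- twice the symmetrised monomial of a value column -/
def VK.Q (c : VK) : PE := .mul (.mul (.pow (.sub (.c 1) (.v 0)) c.a) (.pow pc c.e))
  (.add (.mul (.pow ptt c.i) (.pow ppp c.j)) (.mul (.pow ptt c.j) (.pow ppp c.i)))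

/-- the polynomial multiplying the derivative of the coefficient function -/
def VK.M1 (c : VK) : PE := .mul (.mul (.c 2) pA) (.mul c.Q (.pow pP (11 - c.q)))

/-- the polynomial multiplying the coefficient function -/
def VK.M0 (c : VK) : PE := .add (.mul pA' (.mul c.Q (.pow pP (11 - c.q))))
  (.mul (.mul (.mul (.c 2) pA) (.mul (.c c.q) (.v 0))) (.mul c.Q (.pow pP (10 - c.q))))

/-- `(1 - T s) ^ 11` times the function of a row -/
def RK.S (c : RK) : PE := .mul (.pow (.v 0) c.a) (.pow pP (11 - c.q))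

/-- `(1 - T s) ^ 11` times the derivative of the function of a row -/
def RK.S' (c : RK) : PE := .add (.mul (.mul (.c c.a) (.pow (.v 0) (c.a - 1))) (.pow pP (11 - c.q)))
  (.mul (.pow (.v 0) c.a) (.mul (.mul (.c c.q) (.v 4)) (.pow pP (10 - c.q))))

/-- the row of the first family -/
def RK.r0 (c : RK) (t p : PE) : PE :=
  .sub (.add (.mul (.mul c.S' (.pow t c.i))
      (.sub (.sub (.c 1) (.pow (.v 0) 2)) (.mul (.c 42) (.pow p 2))))
    (.mul (.mul c.S (.mul (.c c.i) (.pow t (c.i - 1))))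
      (.sub (.sub (.c 0) (.mul (.v 0) t)) (.mul p pc))))
    (.mul (.mul (.c 13) (.v 0)) (.mul c.S (.pow t c.i)))

/-- the row of the second family -/
def RK.r1 (c : RK) (t p : PE) : PE :=
  .sub (.add (.mul (.mul (.c 42) (.mul c.S' (.pow t c.i)))
      (.sub (.sub (.c 0) (.mul (.v 0) t)) (.mul p pc)))
    (.mul (.mul c.S (.mul (.c c.i) (.pow t (c.i - 1))))
      (.sub (.sub (.c 1) (.mul (.c 42) (.pow t 2))) (.pow pc 2))))
    (.mul (.mul (.c 546) t) (.mul c.S (.pow t c.i)))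

/-- the row -/
def RK.r (c : RK) (t p : PE) : PE :=
  if c.fam = 0 then c.r0 t p else if c.fam = 1 then c.r1 t p
  else .sub (.mul p (c.r1 t p)) (.mul pc (c.r0 t p))

/-- the polynomial multiplying the coefficient function of a row -/
def RK.M (c : RK) : PE := .add (c.r ptt ppp) (c.r ppp ptt)

/-! ### Value columns -/

/-- the coefficient -/
def VK.phi (c : VK) (g : ℝ → ℝ) (T : ℝ) : ℝ := √(AT T) * g T / √42 ^ (c.i + c.j)

/-- the derivative of the coefficient -/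
def VK.phi' (c : VK) (g g' : ℝ → ℝ) (T : ℝ) : ℝ :=
  (2 * AT T * g' T + (-12 - 2 * T) * g T) / (2 * √(AT T)) / √42 ^ (c.i + c.j)

/-- the value terms of a value column -/
def VK.gts (c : VK) (g g' : ℝ → ℝ) (k : ℕ) (lim : ℝ) : List GT :=
  [⟨fun T => c.phi g T / 2, fun T => c.phi' g g' T / 2, k, lim / 2, c.q, c.a, c.i, c.j,
      fun d => d 3 ^ c.e⟩,
   ⟨fun T => c.phi g T / 2, fun T => c.phi' g g' T / 2, k, lim / 2, c.q, c.a, c.j, c.i,
      fun d => d 3 ^ c.e⟩]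

section vals

variable (T s t p c : ℝ)

lemma vT0 : vT T s t p c 0 = s := rfl
lemma vT1 : vT T s t p c 1 = (t + p) / (2 * √42) := rfl
lemma vT2 : vT T s t p c 2 = (p - t) / (2 * √42) := rfl
lemma vT3 : vT T s t p c 3 = c - s - (t + p) / (2 * √42) := rfl
lemma vT4 : vT T s t p c 4 = T := rfl

lemma ev_pc : PE.ev (vT T s t p c) pc = c := by
  simp only [pc, PE.ev_add, PE.ev_v, vT0, vT1, vT3]
  ring

lemma ev_pP : PE.ev (vT T s t p c) pP = 1 - T * s := by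
  simp only [pP, PE.ev_sub, PE.ev_mul, PE.ev_v, PE.ev_c, vT0, vT4, Int.cast_one]

lemma ev_ptt : √42 * PE.ev (vT T s t p c) ptt = t := by
  have h6 : √(42 : ℝ) ≠ 0 := by positivity
  simp only [ptt, PE.ev_sub, PE.ev_v, vT1, vT2]
  field_simp
  ring

lemma ev_ppp : √42 * PE.ev (vT T s t p c) ppp = p := by
  have h6 : √(42 : ℝ) ≠ 0 := by positivity
  simp only [ppp, PE.ev_add, PE.ev_v, vT1, vT2]
  field_simp
  ring

lemma ev_pA : PE.ev (vT T s t p c) pA = AT T := by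
  simp only [pA, AT, PE.ev_mul, PE.ev_sub, PE.ev_add, PE.ev_v, PE.ev_c, vT4, Int.cast_one,
    Int.cast_ofNat]

lemma ev_pA' : PE.ev (vT T s t p c) pA' = -12 - 2 * T := by
  simp only [pA', PE.ev_mul, PE.ev_sub, PE.ev_v, PE.ev_c, vT4, Int.cast_neg, Int.cast_ofNat]

end vals

lemma ker_mul {T s : ℝ} (h : 1 - T * s ≠ 0) {n q : ℕ} (hq : q ≤ n) :
    (1 - T * s) ^ n * SM2.ker T q s = (1 - T * s) ^ (n - q) := by
  unfold SM2.ker
  rw [pow_sub₀ _ h hq]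

/-- the value terms of a value column -/
theorem VK.eq (c : VK) (hq : c.q ≤ 10) (g g' : ℝ → ℝ) (k : ℕ) (lim : ℝ) {T : ℝ} (h0 : 0 < T)
    (h1 : T < 1) {d : R9} (hd : 1 - T * d 0 ≠ 0) :
    4 * √(AT T) * (1 - T * d 0) ^ 11 * gS' ((c.gts g g' k lim).map GT.v) T d
      = g' T * PE.ev (vT T (d 0) (d 1) (d 2) (d 3)) c.M1
        + g T * PE.ev (vT T (d 0) (d 1) (d 2) (d 3)) c.M0 := by
  have hA : √(AT T) ≠ 0 := (Real.sqrt_pos.2 (AT_pos h0 h1)).ne'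
  have hA2 : √(AT T) ^ 2 = AT T := Real.sq_sqrt (AT_pos h0 h1).le
  have h6 : √(42 : ℝ) ≠ 0 := by positivity
  have k1 := ker_mul hd (n := 11) (q := c.q) (by omega)
  have k2 := ker_mul hd (n := 11) (q := c.q + 1) (by omega)
  have k3 : 11 - (c.q + 1) = 10 - c.q := by omega
  rw [k3] at k2
  set f := vT T (d 0) (d 1) (d 2) (d 3) with hf
  have et : PE.ev f ptt = d 1 / √42 := by
    rw [eq_div_iff h6, mul_comm]
    exact ev_ptt _ _ _ _ _
  have ep : PE.ev f ppp = d 2 / √42 := by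
    rw [eq_div_iff h6, mul_comm]
    exact ev_ppp _ _ _ _ _
  have ec : PE.ev f pc = d 3 := ev_pc _ _ _ _ _
  have eP : PE.ev f pP = 1 - T * d 0 := ev_pP _ _ _ _ _
  have eA : PE.ev f pA = AT T := ev_pA _ _ _ _ _
  have eA' : PE.ev f pA' = -12 - 2 * T := ev_pA' _ _ _ _ _
  have e0 : f 0 = d 0 := rfl
  have hQ : PE.ev f c.Q = (1 - d 0) ^ c.a * d 3 ^ c.e
      * ((d 1 ^ c.i * d 2 ^ c.j + d 1 ^ c.j * d 2 ^ c.i) / √42 ^ (c.i + c.j)) := by
    simp only [VK.Q, PE.ev_mul, PE.ev_add, PE.ev_pow, PE.ev_sub, PE.ev_c, PE.ev_v, et, ep, ec, e0,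
      Int.cast_one, div_pow]
    rw [pow_add]
    field_simp
  simp only [VK.M1, VK.M0, PE.ev_add, PE.ev_mul, PE.ev_pow, PE.ev_c, PE.ev_v, eP, eA, eA', e0,
    Int.cast_ofNat, Int.cast_natCast, hQ]
  simp only [gS', VK.gts, List.map_cons, List.map_nil, List.sum_cons, List.sum_nil, VTm.g', GT.v,
    GT.Q, VK.phi, VK.phi', add_zero]
  rw [← k1, ← k2]
  have h6p : √(42 : ℝ) ^ (c.i + c.j) ≠ 0 := pow_ne_zero _ h6
  field_simp
  rw [hA2]
  ring

/-! ### Row columns -/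

/-- the family of a row -/
def RK.fm (c : RK) : Fin 6 := if c.fam = 0 then 0 else if c.fam = 1 then 1 else 3

/-- the row term -/
def RK.st (c : RK) : OT.STerm := ⟨c.fm, c.a, c.q, c.i, 0, 0, 0, 0⟩

/-- the coefficient of a row -/
def RK.psi (c : RK) (z : ℝ → ℝ) (T : ℝ) : ℝ :=
  (if c.fam = 1 then √42 else 1) * z T / (2 * √(AT T)) / √42 ^ c.i

lemma RK.eq1 (c : RK) (hq : c.q ≤ 10) (z : ℝ → ℝ) {T : ℝ} (h0 : 0 < T) (h1 : T < 1) {d : R9}
    (hd : 1 - T * d 0 ≠ 0) {f : ℕ → ℝ} (e0 : f 0 = d 0) (e4 : f 4 = T) {tE pE : PE}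
    (ht : √42 * PE.ev f tE = d 1) (hp : √42 * PE.ev f pE = d 2) (hc : PE.ev f pc = d 3) :
    2 * √(AT T) * (1 - T * d 0) ^ 11 * (c.psi z T * c.st.R 13 T d) = z T * PE.ev f (c.r tE pE) := by
  have hA : √(AT T) ≠ 0 := (Real.sqrt_pos.2 (AT_pos h0 h1)).ne'
  have h6 : √(42 : ℝ) ≠ 0 := by positivity
  have h66 : √(42 : ℝ) ^ 2 = 42 := Real.sq_sqrt (by norm_num)
  have k1 := ker_mul hd (n := 11) (q := c.q) (by omega)
  have k2 := ker_mul hd (n := 11) (q := c.q + 1) (by omega)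
  have k3 : 11 - (c.q + 1) = 10 - c.q := by omega
  rw [k3] at k2
  have eP : PE.ev f pP = 1 - T * d 0 := by
    simp only [pP, PE.ev_sub, PE.ev_mul, PE.ev_v, PE.ev_c, e0, e4, Int.cast_one]
  have hS : PE.ev f c.S = (1 - T * d 0) ^ 11 * sk T c.a c.q (d 0) := by
    simp only [RK.S, PE.ev_mul, PE.ev_pow, PE.ev_v, eP, e0, sk]
    rw [← k1]
    ring
  have hS' : PE.ev f c.S' = (1 - T * d 0) ^ 11 * sk' T c.a c.q (d 0) := by
    simp only [RK.S', PE.ev_add, PE.ev_mul, PE.ev_pow, PE.ev_v, PE.ev_c, eP, e0, e4, sk',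
      Int.cast_natCast]
    rw [← k1, ← k2]
    ring
  obtain ⟨a, ha⟩ : ∃ a, PE.ev f tE = a := ⟨_, rfl⟩
  obtain ⟨b, hb⟩ : ∃ b, PE.ev f pE = b := ⟨_, rfl⟩
  rw [ha] at ht
  rw [hb] at hp
  have hr0 : PE.ev f (c.r0 tE pE) = (1 - T * d 0) ^ 11 * (sk' T c.a c.q (d 0) * a ^ c.i
      * (1 - d 0 ^ 2 - 42 * b ^ 2) + sk T c.a c.q (d 0) * (c.i * a ^ (c.i - 1))
      * (-(d 0 * a) - b * d 3) - 13 * d 0 * (sk T c.a c.q (d 0) * a ^ c.i)) := by
    simp only [RK.r0, PE.ev_add, PE.ev_sub, PE.ev_mul, PE.ev_pow, PE.ev_c, PE.ev_v, hS, hS', ha,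
      hb, hc, e0, Int.cast_one, Int.cast_zero, Int.cast_ofNat, Int.cast_natCast]
    ring
  have hr1 : PE.ev f (c.r1 tE pE) = (1 - T * d 0) ^ 11 * (42 * (sk' T c.a c.q (d 0) * a ^ c.i)
      * (-(d 0 * a) - b * d 3) + sk T c.a c.q (d 0) * (c.i * a ^ (c.i - 1))
      * (1 - 42 * a ^ 2 - d 3 ^ 2) - 546 * a * (sk T c.a c.q (d 0) * a ^ c.i)) := by
    simp only [RK.r1, PE.ev_add, PE.ev_sub, PE.ev_mul, PE.ev_pow, PE.ev_c, PE.ev_v, hS, hS', ha,
      hb, hc, e0, Int.cast_one, Int.cast_zero, Int.cast_ofNat, Int.cast_natCast]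
    ring
  have hi : √(42 : ℝ) * (c.i * (√42 * a) ^ (c.i - 1)) = √42 ^ c.i * (c.i * a ^ (c.i - 1)) := by
    rcases c.i with _ | n
    · simp
    · rw [Nat.add_sub_cancel, mul_pow, pow_succ]
      ring
  have hti : (√(42 : ℝ) * a) ^ c.i = √42 ^ c.i * a ^ c.i := mul_pow _ _ _
  have h6p : √(42 : ℝ) ^ c.i ≠ 0 := pow_ne_zero _ h6
  have hR0 : rG 0 13 (sk T c.a c.q) (sk' T c.a c.q) c.i 0 d = √42 ^ c.i
      * (sk' T c.a c.q (d 0) * a ^ c.i
      * (1 - d 0 ^ 2 - 42 * b ^ 2) + sk T c.a c.q (d 0) * (c.i * a ^ (c.i - 1))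
      * (-(d 0 * a) - b * d 3) - 13 * d 0 * (sk T c.a c.q (d 0) * a ^ c.i)) := by
    simp only [rG, rowE, ← ht, ← hp, pow_zero, one_mul, Nat.cast_zero, zero_mul]
    rw [hti, mul_pow √42 b, h66]
    linear_combination (sk T c.a c.q (d 0) * (-(d 0 * a) - b * d 3)) * hi
  have hR1 : √42 * rG 1 13 (sk T c.a c.q) (sk' T c.a c.q) c.i 0 d = √42 ^ c.i
      * (42 * (sk' T c.a c.q (d 0) * a ^ c.i)
      * (-(d 0 * a) - b * d 3) + sk T c.a c.q (d 0) * (c.i * a ^ (c.i - 1))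
      * (1 - 42 * a ^ 2 - d 3 ^ 2) - 546 * a * (sk T c.a c.q (d 0) * a ^ c.i)) := by
    simp only [rG, rowE, ← ht, ← hp, pow_zero, one_mul, Nat.cast_zero, zero_mul]
    rw [hti, mul_pow √42 a 2, h66]
    linear_combination (sk T c.a c.q (d 0) * (1 - 42 * a ^ 2 - d 3 ^ 2)) * hi
      + √42 ^ c.i * (a ^ c.i * sk' T c.a c.q (d 0) * (-(d 0 * a) - b * d 3)
        - 13 * a * (sk T c.a c.q (d 0) * a ^ c.i)) * h66
  have hR3 : rG 3 13 (sk T c.a c.q) (sk' T c.a c.q) c.i 0 d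
      = √42 * b * rG 1 13 (sk T c.a c.q) (sk' T c.a c.q) c.i 0 d
        - d 3 * rG 0 13 (sk T c.a c.q) (sk' T c.a c.q) c.i 0 d := by
    simp only [rG, rowE, ← hp]
    ring
  have hR : c.st.R 13 T d = rG c.fm 13 (sk T c.a c.q) (sk' T c.a c.q) c.i 0 d := by
    simp only [OT.STerm.R, RK.st, pow_zero, one_mul]
    norm_cast
  rw [hR]
  unfold RK.r RK.fm RK.psi
  by_cases f0 : c.fam = 0
  · have f1 : ¬ c.fam = 1 := by omega
    rw [if_pos f0, if_neg f1, if_pos f0, hr0, hR0]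
    field_simp
  · rw [if_neg f0, if_neg f0]
    by_cases f1 : c.fam = 1
    · rw [if_pos f1, if_pos f1, if_pos f1, hr1]
      have e1 : 2 * √(AT T) * (1 - T * d 0) ^ 11 * (√42 * z T / (2 * √(AT T)) / √42 ^ c.i
          * rG 1 13 (sk T c.a c.q) (sk' T c.a c.q) c.i 0 d)
          = (1 - T * d 0) ^ 11 * z T / √42 ^ c.i
            * (√42 * rG 1 13 (sk T c.a c.q) (sk' T c.a c.q) c.i 0 d) := by
        field_simp
      rw [e1, hR1]
      field_simp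
    · rw [if_neg f1, if_neg f1, if_neg f1, PE.ev_sub, PE.ev_mul, PE.ev_mul, hr0, hr1, hb, hc, hR3]
      have e1 : 2 * √(AT T) * (1 - T * d 0) ^ 11 * (1 * z T / (2 * √(AT T)) / √42 ^ c.i
          * (√42 * b * rG 1 13 (sk T c.a c.q) (sk' T c.a c.q) c.i 0 d
            - d 3 * rG 0 13 (sk T c.a c.q) (sk' T c.a c.q) c.i 0 d))
          = (1 - T * d 0) ^ 11 * z T / √42 ^ c.i
            * (b * (√42 * rG 1 13 (sk T c.a c.q) (sk' T c.a c.q) c.i 0 d)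
              - d 3 * rG 0 13 (sk T c.a c.q) (sk' T c.a c.q) c.i 0 d) := by
        field_simp
      rw [e1, hR1, hR0]
      field_simp

/-- a symmetrised row -/
theorem RK.eq (c : RK) (hq : c.q ≤ 10) (z : ℝ → ℝ) {T : ℝ} (h0 : 0 < T) (h1 : T < 1) {d : R9}
    (hd : 1 - T * d 0 ≠ 0) :
    2 * √(AT T) * (1 - T * d 0) ^ 11 * (c.psi z T * c.st.R 13 T d + c.psi z T * c.st.R 13 T (sw9 d))
      = z T * PE.ev (vT T (d 0) (d 1) (d 2) (d 3)) c.M := by
  have k1 := c.eq1 hq z h0 h1 (d := d) hd (f := vT T (d 0) (d 1) (d 2) (d 3)) rfl rfl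
    (ev_ptt _ _ _ _ _) (ev_ppp _ _ _ _ _) (ev_pc _ _ _ _ _)
  have k2 := c.eq1 hq z h0 h1 (d := sw9 d) hd (f := vT T (d 0) (d 1) (d 2) (d 3)) rfl rfl
    (ev_ppp _ _ _ _ _) (ev_ptt _ _ _ _ _) (ev_pc _ _ _ _ _)
  have e0 : sw9 d 0 = d 0 := rfl
  rw [e0] at k2
  rw [mul_add, k1, k2, RK.M, PE.ev_add]
  ring

end

end Vale.Agent.P224.S13
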