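import Vale.Agent.P224.S13.Mk

/-!
The pointwise inequality from truncated columns: every coefficient function is approximated by a
polynomial; the part of a column of degree below two in `u`, `v` drops out by exact identities in
the base functions.
-/

namespace Vale.Agent.P224.S13

open Vale.Agent.P224.UE Vale.Agent.P224.POS Vale.Agent.P224.PO Vale.Agent.P224.SO Set
open scoped RealInnerProductSpace

noncomputable section

/-- the value at `u = v = 0` -/
def z0 (e : PE) : PE :=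
  PE.rec (motive := fun _ => PE) (fun n => .c n)
    (fun i => Bool.rec (motive := fun _ => PE) (Bool.rec (motive := fun _ => PE) (.v i) (.c 0)
      (Nat.beq i 3)) (.c 0) (Nat.beq i 2))
    (fun _ _ x y => .add x y) (fun _ _ x y => .sub x y) (fun _ _ x y => .mul x y)
    (fun _ n x => .pow x n) e

/-- the derivative in `v` at `u = v = 0` -/
def d3 (e : PE) : PE :=
  PE.rec (motive := fun _ => PE) (fun _ => .c 0)
    (fun i => Bool.rec (motive := fun _ => PE) (.c 0) (.c 1) (Nat.beq i 3))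
    (fun _ _ x y => .add x y) (fun _ _ x y => .sub x y)
    (fun a b x y => .add (.mul (z0 a) y) (.mul x (z0 b)))
    (fun a n x => .mul (.mul (.c (Int.ofNat n)) (.pow (z0 a) (Nat.pred n))) x) e

/-- the part of degree below two -/
def pl (M : PE) : PE := .add (z0 M) (.mul (.v 3) (d3 M))

/-- a column: the polynomial, the coefficients in the base functions, the approximation `Z` of `D`
times the function with the error `E (1 - T) ^ h`, the parts with `u ^ 2` and with `v ^ 2` -/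
structure Cl where
  M : PE
  r : List PE
  Z : PE
  E : ℕ
  h : ℕ
  L2 : WE
  L3 : WE

/-- the truncated column -/
def Cl.q (x : Cl) : PE := .add (.mul (.pow (.v 2) 2) x.L2.pe) (.mul (.pow (.v 3) 2) x.L3.pe)

/-- the truncated column is not zero -/
def Cl.nz (x : Cl) : Bool := !(decide (x.L2.wb.2 = 0) && decide (x.L3.wb.2 = 0))

/-- the contact polynomial of the base function number `p` -/
def Ct (p : ℕ) : List Cl → PE
  | [] => .c 0
  | c :: l => .add (.mul (c.r.getD p (.c 0)) (pl c.M)) (Ct p l)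

/-- the approximate total -/
def Qt : List Cl → PE
  | [] => .c 0
  | c :: l => .add (.mul c.Z c.q) (Qt l)

/-- the identity of the truncation -/
def Cl.tr (c : Cl) : PE := .sub c.M (.add (pl c.M) c.q)

/-- the errors are small enough -/
def errT (n2 n3 : ℕ) (l : List Cl) (Dl : ℕ) : Bool :=
  (l.all fun x => !x.nz || (decide (x.E = 0) || (WE.ok x.h n2 x.L2 && WE.ok x.h n3 x.L3)))
    && decide ((l.map fun x => x.E * WE.bd x.h n2 x.L2).sum ≤ Dl)
    && decide ((l.map fun x => x.E * WE.bd x.h n3 x.L3).sum ≤ Dl)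

lemma sum_pl {T : ℝ} {f : ℕ → ℝ} {l : List ((ℝ → ℝ) × Cl)} {n : ℕ} {b : ℕ → ℝ → ℝ} {Dn : ℝ}
    (h : ∀ c ∈ l, Dn * c.1 T = ∑ p ∈ Finset.range n, b p T * PE.ev f (c.2.r.getD p (.c 0))) :
    Dn * (l.map fun c => c.1 T * PE.ev f (pl c.2.M)).sum
      = ∑ p ∈ Finset.range n, b p T * PE.ev f (Ct p (l.map fun c => c.2)) := by
  induction l with
  | nil => simp [Ct]
  | cons c l ih =>
    have h1 := h c List.mem_cons_self
    have h2 := ih fun u hu => h u (List.mem_cons_of_mem _ hu)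
    have e2 : ∀ p, PE.ev f (Ct p ((c :: l).map fun c => c.2))
        = PE.ev f (c.2.r.getD p (.c 0)) * PE.ev f (pl c.2.M)
          + PE.ev f (Ct p (l.map fun c => c.2)) := by
      intro p
      rw [List.map_cons, Ct, PE.ev_add, PE.ev_mul]
    rw [List.map_cons, List.sum_cons, mul_add, h2, ← mul_assoc, h1, Finset.sum_mul,
      ← Finset.sum_add_distrib]
    refine Finset.sum_congr rfl fun p _ => ?_
    rw [e2]
    ring

/-- the error terms -/
lemma errT_le {n2 n3 : ℕ} {T : ℝ} {f : ℕ → ℝ} (hf : Rg f) (hT : f 4 = T)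
    {l : List ((ℝ → ℝ) × Cl)} {D : ℝ}
    (hδ : ∀ c ∈ l, c.2.nz = true → |D * c.1 T - PE.ev f c.2.Z| ≤ c.2.E * (1 - T) ^ c.2.h)
    (hl : ∀ c ∈ l, c.2.nz = false ∨ c.2.E = 0 ∨ (WE.ok c.2.h n2 c.2.L2 = true ∧ WE.ok c.2.h n3 c.2.L3 = true)) :
    PE.ev f (Qt (l.map fun c => c.2))
      - (f 2 ^ 2 * (((l.map fun c => c.2).map fun x => x.E * WE.bd x.h n2 x.L2).sum
          * (1 - f 4 * f 0) ^ n2)
        + f 3 ^ 2 * (((l.map fun c => c.2).map fun x => x.E * WE.bd x.h n3 x.L3).sum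
          * (1 - f 4 * f 0) ^ n3))
      ≤ D * (l.map fun c => c.1 T * PE.ev f c.2.q).sum := by
  induction l with
  | nil => simp [Qt]
  | cons x l ih =>
    have h1 := ih (fun u hu => hδ u (List.mem_cons_of_mem _ hu))
      (fun u hu => hl u (List.mem_cons_of_mem _ hu))
    have h0 := hδ x List.mem_cons_self
    have hP0 := hf.P0
    by_cases hnz : x.2.nz = true
    swap
    · have hz : x.2.L2.wb.2 = 0 ∧ x.2.L3.wb.2 = 0 := by
        unfold Cl.nz at hnz
        simpa using hnz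
      have q2 : PE.ev f x.2.L2.pe = 0 := by
        have := x.2.L2.le hf
        rw [hz.1, Nat.cast_zero, zero_mul] at this
        exact abs_nonpos_iff.1 this
      have q3 : PE.ev f x.2.L3.pe = 0 := by
        have := x.2.L3.le hf
        rw [hz.2, Nat.cast_zero, zero_mul] at this
        exact abs_nonpos_iff.1 this
      have q0 : PE.ev f x.2.q = 0 := by
        rw [Cl.q, PE.ev_add, PE.ev_mul, PE.ev_mul, q2, q3, mul_zero, mul_zero, add_zero]
      have b2 : WE.bd x.2.h n2 x.2.L2 = 0 := by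
        unfold WE.bd
        rw [hz.1, zero_mul]
      have b3 : WE.bd x.2.h n3 x.2.L3 = 0 := by
        unfold WE.bd
        rw [hz.2, zero_mul]
      simp only [List.map_cons, List.sum_cons, Qt, PE.ev_add, PE.ev_mul, q0, b2, b3, mul_zero,
        zero_add]
      exact h1
    replace h0 := h0 hnz
    have hT1 : 0 ≤ 1 - T := by rw [← hT]; linarith [hf.T1]
    have key : |(D * x.1 T - PE.ev f x.2.Z) * PE.ev f x.2.q|
        ≤ f 2 ^ 2 * ((x.2.E * WE.bd x.2.h n2 x.2.L2 : ℕ) * (1 - f 4 * f 0) ^ n2)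
        + f 3 ^ 2 * ((x.2.E * WE.bd x.2.h n3 x.2.L3 : ℕ) * (1 - f 4 * f 0) ^ n3) := by
      rcases (hl x List.mem_cons_self).resolve_left (by rw [hnz]; simp) with h2 | ⟨h2, h3⟩
      · have h4 : D * x.1 T - PE.ev f x.2.Z = 0 := by
          rw [h2] at h0
          simp only [Nat.cast_zero, zero_mul] at h0
          exact abs_nonpos_iff.1 h0
        rw [h4, zero_mul, abs_zero, h2]
        simp
      · have k2 := WE.le_bd hf h2
        have k3 := WE.le_bd hf h3
        rw [hT] at k2 k3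
        rw [abs_mul]
        have e1 : |PE.ev f x.2.q| ≤ f 2 ^ 2 * |PE.ev f x.2.L2.pe|
            + f 3 ^ 2 * |PE.ev f x.2.L3.pe| := by
          rw [Cl.q, PE.ev_add, PE.ev_mul, PE.ev_mul, PE.ev_pow, PE.ev_pow, PE.ev_v, PE.ev_v]
          refine (abs_add_le _ _).trans ?_
          rw [abs_mul, abs_mul, abs_of_nonneg (sq_nonneg (f 2)), abs_of_nonneg (sq_nonneg (f 3))]
        rw [hT]
        have hE : (0 : ℝ) ≤ x.2.E := Nat.cast_nonneg _
        calc |D * x.1 T - PE.ev f x.2.Z| * |PE.ev f x.2.q|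
            ≤ (x.2.E * (1 - T) ^ x.2.h) * (f 2 ^ 2 * |PE.ev f x.2.L2.pe|
              + f 3 ^ 2 * |PE.ev f x.2.L3.pe|) :=
              mul_le_mul h0 e1 (abs_nonneg _) ((abs_nonneg _).trans h0)
          _ = x.2.E * (f 2 ^ 2 * (|PE.ev f x.2.L2.pe| * (1 - T) ^ x.2.h)
              + f 3 ^ 2 * (|PE.ev f x.2.L3.pe| * (1 - T) ^ x.2.h)) := by ring
          _ ≤ x.2.E * (f 2 ^ 2 * (WE.bd x.2.h n2 x.2.L2 * (1 - T * f 0) ^ n2)
              + f 3 ^ 2 * (WE.bd x.2.h n3 x.2.L3 * (1 - T * f 0) ^ n3)) := by gcongr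
          _ = _ := by
            push_cast
            ring
    have k1 := (abs_le.1 key).1
    simp only [List.map_cons, List.sum_cons, Qt, PE.ev_add, PE.ev_mul]
    push_cast at k1 h1 ⊢
    linarith

/-- **The total** from the truncated columns. -/
theorem coreT {n2 n3 : ℕ} {T : ℝ} {f : ℕ → ℝ} (hf : Rg f) (hT : f 4 = T)
    {l : List ((ℝ → ℝ) × Cl)} {n : ℕ} {b : ℕ → ℝ → ℝ} {Dn : ℝ} (hDn : Dn ≠ 0)
    (hcol : ∀ c ∈ l, Dn * c.1 T = ∑ p ∈ Finset.range n, b p T * PE.ev f (c.2.r.getD p (.c 0)))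
    (hct : ∀ p < n, PE.ev f (Ct p (l.map fun c => c.2)) = 0)
    (htr : ∀ c ∈ l, PE.ev f c.2.tr = 0) {D : ℝ}
    (hδ : ∀ c ∈ l, c.2.nz = true → |D * c.1 T - PE.ev f c.2.Z| ≤ c.2.E * (1 - T) ^ c.2.h)
    {Dl : ℕ} (herr : errT n2 n3 (l.map fun c => c.2) Dl = true) :
    PE.ev f (Qt (l.map fun c => c.2)) - Dl * PE.ev f (pW n2 n3)
      ≤ D * (l.map fun c => c.1 T * PE.ev f c.2.M).sum := by
  have h1 := sum_pl hcol
  have h2 : (l.map fun c => c.1 T * PE.ev f (pl c.2.M)).sum = 0 := by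
    have h3 : Dn * (l.map fun c => c.1 T * PE.ev f (pl c.2.M)).sum = 0 := by
      rw [h1]
      refine Finset.sum_eq_zero fun p hp => ?_
      rw [hct p (Finset.mem_range.1 hp), mul_zero]
    exact (mul_eq_zero.1 h3).resolve_left hDn
  have h4 : (l.map fun c => c.1 T * PE.ev f c.2.M).sum
      = (l.map fun c => c.1 T * PE.ev f (pl c.2.M)).sum
        + (l.map fun c => c.1 T * PE.ev f c.2.q).sum := by
    clear h1 h2 hcol hct hδ herr
    induction l with
    | nil => simp
    | cons c l ih =>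
      have h5 := ih fun u hu => htr u (List.mem_cons_of_mem _ hu)
      have h6 := htr c List.mem_cons_self
      unfold Cl.tr at h6
      rw [PE.ev_sub, PE.ev_add, sub_eq_zero] at h6
      simp only [List.map_cons, List.sum_cons]
      rw [h5, h6]
      ring
  rw [h4, h2, zero_add]
  unfold errT at herr
  rw [Bool.and_eq_true, Bool.and_eq_true, decide_eq_true_eq, decide_eq_true_eq] at herr
  obtain ⟨⟨hall, hs2⟩, hs3⟩ := herr
  have hl : ∀ c ∈ l, c.2.nz = false ∨ c.2.E = 0
      ∨ (WE.ok c.2.h n2 c.2.L2 = true ∧ WE.ok c.2.h n3 c.2.L3 = true) := by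
    intro c hc
    have := List.all_eq_true.1 hall c.2 (List.mem_map_of_mem hc)
    rw [Bool.or_eq_true, Bool.or_eq_true, decide_eq_true_eq, Bool.and_eq_true,
      Bool.not_eq_true'] at this
    exact this
  refine le_trans ?_ (errT_le hf hT hδ hl)
  have hP0 := hf.P0
  have c2 : ((((l.map fun c => c.2).map fun x => x.E * WE.bd x.h n2 x.L2).sum : ℕ) : ℝ) ≤ Dl := by
    exact_mod_cast hs2
  have c3 : ((((l.map fun c => c.2).map fun x => x.E * WE.bd x.h n3 x.L3).sum : ℕ) : ℝ) ≤ Dl := by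
    exact_mod_cast hs3
  have hW : PE.ev f (pW n2 n3) = f 2 ^ 2 * (1 - f 4 * f 0) ^ n2
      + f 3 ^ 2 * (1 - f 4 * f 0) ^ n3 := by
    simp only [pW, pP, PE.ev_add, PE.ev_mul, PE.ev_pow, PE.ev_sub, PE.ev_v, PE.ev_c, Int.cast_one]
  have h4 : f 2 ^ 2 * (((l.map fun c => c.2).map fun x => x.E * WE.bd x.h n2 x.L2).sum
          * (1 - f 4 * f 0) ^ n2)
        + f 3 ^ 2 * (((l.map fun c => c.2).map fun x => x.E * WE.bd x.h n3 x.L3).sum
          * (1 - f 4 * f 0) ^ n3)
      ≤ Dl * PE.ev f (pW n2 n3) := by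
    rw [hW]
    calc _ ≤ f 2 ^ 2 * (Dl * (1 - f 4 * f 0) ^ n2) + f 3 ^ 2 * (Dl * (1 - f 4 * f 0) ^ n3) := by
          gcongr
      _ = _ := by ring
  linarith

end

end Vale.Agent.P224.S13
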