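import Vale.Agent.P224.SP.Left5
import Vale.Agent.P224.S13.Fun13

/-!
Polynomial models at `T = 0` for `m = 13`: on `(0, 1/4]`, with remainder a multiple of `T ^ 24`.
-/

namespace Vale.Agent.P224.S13

open Set Filter Real
open Vale.Agent.P224.SP (qR qD qL qU qL_eq_qU Ap SL wL evq ev ev_cons ev_nil ap_of_evq sqL ev_sqL
  sqrt_encl qU_encl)
open scoped Topology

/-- regular part of `l1` -/
noncomputable def lam1 (T : ℝ) : ℝ := Real.log ((qD (-12 / 13) T + y1 T) / 2)

/-- regular part of `L0` -/
noncomputable def lam0 (T : ℝ) : ℝ := Real.log ((qD (-170 / 169) (T ^ 2) + y12 T) / 2)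

/-- regular part of `L13` -/
noncomputable def lam3 (T : ℝ) : ℝ := Real.log ((qD (14 / 13) T + b13 T) / 2)

lemma lam1_eq (T : ℝ) : lam1 T = qU (-12 / 13) (-1 / 13) T := rfl
lemma lam0_eq (T : ℝ) : lam0 T = qU (-170 / 169) (1 / 169) (T ^ 2) := rfl
lemma lam3_eq (T : ℝ) : lam3 T = qU (14 / 13) (1 / 13) T := rfl

/-- `f1 = y1 (lam1 + log (26 / 7) - log T)` -/
lemma f1_left {T : ℝ} (h0 : 0 < T) (h1 : T < 1) :
    f1 T = y1 T * (lam1 T + Real.log (26 / 7) - Real.log T) := by
  unfold f1 l1
  rw [qL_eq_qU (by norm_num) h0 (qR_1_pos h0 h1) (qD_1_pos h1.le), lam1_eq]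
  have e : (2 : ℝ) / (7 / 13) = 26 / 7 := by norm_num
  rw [e]
  ring

/-- `f2 = y12 (lam0 + log (169 / 42) - 2 log T)` -/
lemma f2_left {T : ℝ} (h0 : 0 < T) (h1 : T < 1) :
    f2 T = y12 T * (lam0 T + Real.log (169 / 42) - 2 * Real.log T) := by
  unfold f2 L0
  rw [qL_eq_qU (by norm_num) (by positivity) (qR_12_pos h0 h1) (qD_12_pos h0 h1.le), lam0_eq,
    Real.log_pow]
  have e : (2 : ℝ) / (84 / 169) = 169 / 42 := by norm_num
  rw [e]
  push_cast
  ring

/-- `f3 = b13 (lam3 + log (13 / 3) - log T)` -/
lemma f3_left {T : ℝ} (h0 : 0 < T) (h1 : T ≤ 1) :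
    f3 T = b13 T * (lam3 T + Real.log (13 / 3) - Real.log T) := by
  have h3 : 0 < qR (14 / 13) (1 / 13) T := by
    first
      | exact qR_3_pos h0 h1
      | exact qR_3_pos h0
  unfold f3 L13
  rw [qL_eq_qU (by norm_num) h0 h3 (qD_3_pos h0), lam3_eq]
  have e : (2 : ℝ) / (6 / 13) = 13 / 3 := by norm_num
  rw [e]
  ring

/-- Taylor coefficients at `0` (times `dY1`) -/
def cY1 : List ℤ :=
  [1683928581645195073372746678272, -777197806913166956941267697664,
  -244119823966315262116167417856, -112670687984453197899769577472,
  -69696931990382907675177975808, -48501731070230592587030986752,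
  -36258772740558983624682143744, -28429515661074893292056543232,
  -23065346973717659566382895104, -19200498475222553168605126656,
  -16306986717605569539710793728, -14074129186075631838292807680,
  -12308353576307562419758275072, -10883396954977514392364319744, -9713744135087968931164774656,
  -8739627247917851997728540160, -7918143340835816556297634896, -7217780284462949354930134176,
  -6614925839470945387267654232, -6091574537815002919048945488, -5633781871792064306201600078,
  -5230598167326055312066137132, -4873318198343562337713636839, -4554943339528963844051642298]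

/-- common denominator -/
def dY1 : ℤ := 1683928581645195073372746678272

/-- remainder constant -/
def eY1 : ℤ := 8419642908225975366863733391

/-- Taylor coefficients at `0` (times `dY12`) -/
def cY12 : List ℤ :=
  [247064529073450392704413, 0, -124263224681912919407545, 0, -30518667363577360227624, 0,
  -15349625597065536209160, 0, -9605136407380585101576, 0, -6727049599050079364520, 0,
  -5046723406362099564648, 0, -3966000157694304966600, 0, -3222778518654139415880, 0,
  -2685895207322723159400, 0, -2283171079852518336936, 0, -1971938747876942081160, 0]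

/-- common denominator -/
def dY12 : ℤ := 247064529073450392704413

/-- remainder constant -/
def eY12 : ℤ := 1976516232587603141635

/-- Taylor coefficients at `0` (times `dB13`) -/
def cB13 : List ℤ :=
  [3211838877954855105157369, 1729451703514152748930891, -342089347947854389898418,
  184201956587306209945302, -117403444857843518426676, 82836382843995692046408,
  -62390792110233308251842, 49151049023208593046222, -40007610582315532941798,
  33383699290631447868474, -28404668780837950505814, 24550708765918851988290,
  -21495590830529036459784, 19025343408615303846996, -16994415370175048198718,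
  15300719918254874171250, -13870763190353191491252, 12650432278059159797304,
  -11599095762292171114566, 10685714758350750470898, -9886213440207221011596,
  9181660818777501200328, -8556988110577642116342, 8000067574944214893018]

/-- common denominator -/
def dB13 : ℤ := 3211838877954855105157369

/-- remainder constant -/
def eB13 : ℤ := 9635516633864565315472

/-- Taylor coefficients at `0` (times `dLa1`) -/
def cLa1 : List ℤ :=
  [0, -40012451377376367049198576640804782080, -15517649412379937221003294145953136640,
  -8641742457244008268022177795203399680, -5682526183110695505273145033996861440,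
  -4095774046273348702631586033494654976, -3130888801137647397380098913959772160,
  -2493138430644614510287023348097351680, -2045882861723423476166813538086108160,
  -1718002058197922097937505369963642880, -1469210521350118894436839295634536448,
  -1275159213057191860015761599361884160, -1120355151051992693318364546127745280,
  -994519930822547188664149619547432960, -890594339825900800425574555715393280,
  -803586474948922372025153794352249856, -729877126343429262632076244874702430,
  -666785065276477315226099136121266240, -612286149430777961726756565659743480,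
  -564826695738331726724761468576484640, -523196413914990176909392352835900573,
  -486439996658349507509091179838076920, -453794404917233551491767450819100285,
  -424643600940021051087727029656921220]

/-- common denominator -/
def dLa1 : ℤ := 86693644650982128606596916055077027840

/-- remainder constant -/
def eLa1 : ℤ := 693549157207857028852775328440616222

/-- Taylor coefficients at `0` (times `dLa0x`) -/
def cLa0x : List ℤ :=
  [0, -3444576588182626125977147400, -1289228404202150321358589140, -715946739247509875675770200,
  -469759452341565172393897290, -338194689537093327578039400, -258327577997876397596886300,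
  -205599082410313695959427000, -168650337669761365360467525, -141579688424827512352493000,
  -121048399227375448150149828, -105040430057724938792530200]

/-- common denominator -/
def dLa0x : ℤ := 6848628745916044885766328360

/-- remainder constant -/
def eLa0x : ℤ := 136972574918320897715326567

/-- Taylor coefficients at `0` (times `dLa3`) -/
def cLa3 : List ℤ :=
  [0, 712298481347744164389012747410160, -262219770606037686890460736683960,
  144707581023308972252600222846640, -94705268205722080768218597780540,
  68089958817114635958645796820112, -51966941838621139377594572265240,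
  41336344551607069107389737130640, -33893752029097485504894813408510,
  28444460243884910095580282132560, -24313591358334783406197823959432,
  21094073664845829433254021505680, -18527302035804026576715337313580,
  16441928334742287813342138151920, -14720391994064510601025918688520,
  13279631825712219742252099750128, -12059470935679004818153588269855,
  11015356119270340449761820150480, -10113670973944985437492926143720,
  9328624570218367341138910018320, -8640134648583362765166335677668,
  8032355755483258796864116689840, -7492635756199088762493359919240,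
  7010763040777434864029047888560]

/-- common denominator -/
def dLa3 : ℤ := 1322840036788667733865309388047440

/-- remainder constant -/
def eLa3 : ℤ := 6614200183943338669326546940237

set_option maxRecDepth 20000 in
theorem ap_y1 : Ap SL wL y1 dY1 cY1 eY1 := by
  intro T hT
  have hA : ((0 : ℤ) : ℝ) ≤ (4 : ℤ) * T := by
    push_cast
    linarith [hT.1]
  have hB : ((4 : ℤ) : ℝ) * T ≤ (1 : ℤ) := by
    push_cast
    linarith [hT.2]
  have h := sqrt_encl (y := y1 T) (R := qR (-12 / 13) (-1 / 13) T) (RL := [13, -12, -1]) (dR := 13) (by norm_num)
    (T := T) (by unfold qR evq; simp only [ev_cons, ev_nil]; push_cast; ring) rfl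
    (PL := cY1 ++ [-eY1]) (QL := cY1 ++ [eY1]) (dP := dY1) (A := 0) (B := 1) (d := 4)
    (by decide +kernel) hA hB (by decide +kernel) (by decide +kernel) (by decide +kernel)
  exact ap_of_evq (by decide +kernel) h.1 h.2 rfl

set_option maxRecDepth 20000 in
theorem ap_y12 : Ap SL wL y12 dY12 cY12 eY12 := by
  intro T hT
  have hA : ((0 : ℤ) : ℝ) ≤ (4 : ℤ) * T := by
    push_cast
    linarith [hT.1]
  have hB : ((4 : ℤ) : ℝ) * T ≤ (1 : ℤ) := by
    push_cast
    linarith [hT.2]
  have h := sqrt_encl (y := y12 T) (R := qR (-170 / 169) (1 / 169) (T ^ 2)) (RL := [169, 0, -170, 0, 1]) (dR := 169) (by norm_num)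
    (T := T) (by unfold qR evq; simp only [ev_cons, ev_nil]; push_cast; ring) rfl
    (PL := cY12 ++ [-eY12]) (QL := cY12 ++ [eY12]) (dP := dY12) (A := 0) (B := 1) (d := 4)
    (by decide +kernel) hA hB (by decide +kernel) (by decide +kernel) (by decide +kernel)
  exact ap_of_evq (by decide +kernel) h.1 h.2 rfl

set_option maxRecDepth 20000 in
theorem ap_b13 : Ap SL wL b13 dB13 cB13 eB13 := by
  intro T hT
  have hA : ((0 : ℤ) : ℝ) ≤ (4 : ℤ) * T := by
    push_cast
    linarith [hT.1]
  have hB : ((4 : ℤ) : ℝ) * T ≤ (1 : ℤ) := by
    push_cast
    linarith [hT.2]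
  have h := sqrt_encl (y := b13 T) (R := qR (14 / 13) (1 / 13) T) (RL := [13, 14, 1]) (dR := 13) (by norm_num)
    (T := T) (by unfold qR evq; simp only [ev_cons, ev_nil]; push_cast; ring) rfl
    (PL := cB13 ++ [-eB13]) (QL := cB13 ++ [eB13]) (dP := dB13) (A := 0) (B := 1) (d := 4)
    (by decide +kernel) hA hB (by decide +kernel) (by decide +kernel) (by decide +kernel)
  exact ap_of_evq (by decide +kernel) h.1 h.2 rfl

set_option maxRecDepth 20000 in
theorem ap_lam1 : Ap SL wL lam1 dLa1 cLa1 eLa1 := by
  intro T hT
  rw [lam1_eq]
  have h := qU_encl (b := -12 / 13) (c := -1 / 13) (RL := [13, -12, -1]) (dR := 13) (by norm_num)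
    (fun T => by unfold qR evq; simp only [ev_cons, ev_nil]; push_cast; ring) (e := 1 / 4)
    (fun x hx => by rw [qR_1]; exact mul_pos (by linarith [hx.2]) (by linarith [hx.1, hx.2])) (fun x hx => by unfold qD; linarith [hx.2])
    (VL := cLa1 ++ [eLa1]) (WL := cLa1 ++ [-eLa1]) (dV := dLa1) (B := 1) (d := 4)
    (by decide +kernel) (by norm_num) (by norm_num) (by decide +kernel) (by decide +kernel)
    (by decide +kernel) (by decide +kernel) (by decide +kernel) (T := T) ⟨hT.1.le, hT.2⟩
  exact ap_of_evq (by decide +kernel) h.1 h.2 rfl

set_option maxRecDepth 20000 in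
theorem ap_lam3 : Ap SL wL lam3 dLa3 cLa3 eLa3 := by
  intro T hT
  rw [lam3_eq]
  have h := qU_encl (b := 14 / 13) (c := 1 / 13) (RL := [13, 14, 1]) (dR := 13) (by norm_num)
    (fun T => by unfold qR evq; simp only [ev_cons, ev_nil]; push_cast; ring) (e := 1 / 4)
    (fun x hx => by rw [qR_3]; exact mul_pos (by linarith [hx.1]) (by linarith [hx.1, hx.2])) (fun x hx => by unfold qD; linarith [hx.1])
    (VL := cLa3 ++ [eLa3]) (WL := cLa3 ++ [-eLa3]) (dV := dLa3) (B := 1) (d := 4)
    (by decide +kernel) (by norm_num) (by norm_num) (by decide +kernel) (by decide +kernel)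
    (by decide +kernel) (by decide +kernel) (by decide +kernel) (T := T) ⟨hT.1.le, hT.2⟩
  exact ap_of_evq (by decide +kernel) h.1 h.2 rfl

/-- Taylor coefficients at `0` (times `dLa0`) -/
def cLa0 : List ℤ := sqL cLa0x

/-- common denominator -/
def dLa0 : ℤ := dLa0x

/-- remainder constant -/
def eLa0 : ℤ := eLa0x

set_option maxRecDepth 20000 in
theorem ap_lam0 : Ap SL wL lam0 dLa0 cLa0 eLa0 := by
  intro T hT
  rw [lam0_eq]
  have hT2 : T ^ 2 ∈ Icc (0 : ℝ) (1 / 16) := by
    refine ⟨sq_nonneg T, ?_⟩
    have h1 := hT.1
    have h2 := hT.2
    nlinarith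
  have h := qU_encl (b := -170 / 169) (c := 1 / 169) (RL := [169, -170, 1]) (dR := 169) (by norm_num)
    (fun T => by unfold qR evq; simp only [ev_cons, ev_nil]; push_cast; ring) (e := 1 / 16)
    (fun x hx => by unfold qR; nlinarith [hx.1, hx.2]) (fun x hx => by unfold qD; linarith [hx.2])
    (VL := cLa0x ++ [eLa0x]) (WL := cLa0x ++ [-eLa0x]) (dV := dLa0x) (B := 1) (d := 16)
    (by decide +kernel) (by norm_num) (by norm_num) (by decide +kernel) (by decide +kernel)
    (by decide +kernel) (by decide +kernel) (by decide +kernel) (T := T ^ 2) hT2
  have h3 := ap_of_evq (l := cLa0x) (E := eLa0x) (D := dLa0x) (w := (T ^ 2) ^ 12)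
    (by decide +kernel) h.1 h.2 rfl
  unfold cLa0 dLa0 eLa0 SP.wL
  rw [ev_sqL]
  rw [← pow_mul] at h3
  exact h3

end Vale.Agent.P224.S13
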