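import Vale.Agent.P224.S13.Lim0
import Vale.Agent.P224.S13.Reg

/-!
Quotients of combinations of the base functions, extended by their limits (`m = 13`).
-/

namespace Vale.Agent.P224.S13

open Vale.Agent.P224.SP Vale.Agent.P224.UE Vale.Agent.P224.POS Vale.Agent.P224.PO
  Vale.Agent.P224.SO Set Filter Real
open scoped RealInnerProductSpace Topology

noncomputable section

/-! ### Quotients extended by their limits -/

/-- the quotient extended by its limits -/
def ext (N : Q4) (Ql : List ℤ) (L1 T : ℝ) : ℝ :=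
  if T ≤ 0 then lim0 N / ev Ql 0 else if 1 ≤ T then L1 else G4 N T / ev Ql T

lemma ext_mid {N : Q4} {Ql : List ℤ} {L1 T : ℝ} (h0 : 0 < T) (h1 : T < 1) :
    ext N Ql L1 T = G4 N T / ev Ql T := by
  unfold ext
  rw [if_neg (by linarith), if_neg (by linarith)]

lemma ext_zero {N : Q4} {Ql : List ℤ} {L1 : ℝ} : ext N Ql L1 0 = lim0 N / ev Ql 0 := by
  unfold ext
  rw [if_pos le_rfl]

lemma ext_one {N : Q4} {Ql : List ℤ} {L1 : ℝ} : ext N Ql L1 1 = L1 := by
  unfold ext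
  rw [if_neg (by norm_num), if_pos le_rfl]

lemma measurable_ext (N : Q4) (Ql : List ℤ) (L1 : ℝ) : Measurable (ext N Ql L1) := by
  unfold ext
  exact Measurable.ite measurableSet_Iic measurable_const
    (Measurable.ite measurableSet_Ici measurable_const
      ((measurable_G4 _).div (measurable_ev _)))

lemma ev_zero (l : List ℤ) : ev l 0 = (l.headD 0 : ℝ) := by
  cases l <;> simp

/-- the kernel check of the logarithms at `T = 0` -/
def okLog (N : Q4) : Bool :=
  decide (N.n1.headD 0 + 2 * N.n2.headD 0 + N.n3.headD 0 = 0)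

lemma okLog_spec {N : Q4} (h : okLog N = true) :
    ev N.n1 0 + 2 * ev N.n2 0 + ev N.n3 0 = 0 := by
  have h1 : N.n1.headD 0 + 2 * N.n2.headD 0 + N.n3.headD 0 = 0 := of_decide_eq_true h
  rw [ev_zero, ev_zero, ev_zero]
  have h2 : ((N.n1.headD 0 + 2 * N.n2.headD 0 + N.n3.headD 0 : ℤ) : ℝ) = 0 := by
    rw [h1]; norm_num
  push_cast at h2
  exact h2

lemma lgc_of_ok {N : Q4} (h : okLog N = true) : lgc N 0 = 0 := by
  have h2 := okLog_spec h
  unfold lgc
  rw [y1_at0, y12_at0, b13_at0]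
  linarith

/-- the first logarithm at `T = 0` -/
def ll : ℝ := Real.log (24 / 7)

/-- the second constant at `T = 0` -/
def KK : ℝ := L13 1 + Real.log (6 / 7) - cst13

/-- the limit at `T = 0` -/
lemma lim0_eq {N : Q4} (h : okLog N = true) : lim0 N = ev N.n0 0
    + (ev N.n1 0 + ev N.n3 0) / 2 * ll - ev N.n3 0 * KK := by
  have h2 := okLog_spec h
  have h3 : ev N.n2 0 = -(ev N.n1 0 + ev N.n3 0) / 2 := by linarith
  unfold lim0 ll KK
  rw [h3]
  have l6 : Real.log (6 : ℝ) = Real.log 2 + Real.log 3 := by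
    rw [show (6 : ℝ) = 2 * 3 by norm_num,
      Real.log_mul (by norm_num) (by norm_num)]
  have l24 : Real.log (24 : ℝ) = 3 * Real.log 2 + Real.log 3 := by
    rw [show (24 : ℝ) = 2 ^ 3 * 3 by norm_num,
      Real.log_mul (by norm_num) (by norm_num), Real.log_pow]
    norm_num
  have l84 : Real.log (84 : ℝ) = 2 * Real.log 2 + Real.log 3 + Real.log 7 := by
    rw [show (84 : ℝ) = 2 ^ 2 * 3 * 7 by norm_num,
      Real.log_mul (by norm_num) (by norm_num),
      Real.log_mul (by norm_num) (by norm_num), Real.log_pow]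
    norm_num
  have l169 : Real.log (169 : ℝ) = 2 * Real.log 13 := by
    rw [show (169 : ℝ) = 13 ^ 2 by norm_num, Real.log_pow]
    norm_num
  rw [Real.log_div (by norm_num) (by norm_num), Real.log_div (by norm_num) (by norm_num),
    Real.log_div (by norm_num) (by norm_num), Real.log_div (by norm_num) (by norm_num),
    Real.log_div (by norm_num) (by norm_num), l6, l24, l84, l169]
  ring

lemma tendsto_ext_zero {N : Q4} {Ql : List ℤ} {L1 : ℝ} (h : okLog N = true)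
    (hQ : ev Ql 0 ≠ 0) : Tendsto (ext N Ql L1) (𝓝[>] 0) (𝓝 (ext N Ql L1 0)) := by
  rw [ext_zero]
  have h3 : Tendsto (ev Ql) (𝓝[>] 0) (𝓝 (ev Ql 0)) :=
    ((continuous_ev Ql).tendsto 0).mono_left nhdsWithin_le_nhds
  refine ((tendsto_G4_zero (lgc_of_ok h)).div h3 hQ).congr' ?_
  have h0 : ∀ᶠ T in 𝓝[>] (0 : ℝ), T ∈ Ioo (0 : ℝ) 1 := Ioo_mem_nhdsGT one_pos
  filter_upwards [h0] with T hT
  rw [ext_mid hT.1 hT.2]
  rfl

/-- the limit at `T = 1` -/
def Lim1 (N : Q4) (Ql : List ℤ) (L1 : ℝ) : Prop :=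
  Tendsto (fun T => G4 N T / ev Ql T) (𝓝[<] 1) (𝓝 L1)

lemma ev_Ioo : ∀ᶠ T in 𝓝[<] (1 : ℝ), T ∈ Ioo (0 : ℝ) 1 := Ioo_mem_nhdsLT one_pos

/-- the limit at `T = 1` from an approximation -/
theorem Lim1.of_bd {N : Q4} {Ql B : List ℤ} {D E : ℝ} (hD : 0 < D)
    (hb : ∀ T, 0 < T → T < 1 → |D * (G4 N T / ev Ql T) - ev B T| ≤ E * (1 - T)) :
    Lim1 N Ql (ev B 1 / D) := by
  have h3 : Tendsto (ev B) (𝓝[<] 1) (𝓝 (ev B 1)) :=
    ((continuous_ev B).tendsto 1).mono_left nhdsWithin_le_nhds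
  have h4 : Tendsto (fun T : ℝ => E * (1 - T)) (𝓝[<] 1) (𝓝 0) := by
    have h5 : Continuous fun T : ℝ => E * (1 - T) := by fun_prop
    have h6 := h5.tendsto 1
    rw [sub_self, mul_zero] at h6
    exact h6.mono_left nhdsWithin_le_nhds
  have h7 : Tendsto (fun T => D * (G4 N T / ev Ql T) - ev B T) (𝓝[<] 1) (𝓝 0) := by
    refine squeeze_zero_norm' ?_ h4
    filter_upwards [ev_Ioo] with T hT
    rw [Real.norm_eq_abs]
    exact hb T hT.1 hT.2
  have h8 := (h7.add h3).div_const D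
  rw [zero_add] at h8
  refine h8.congr fun T => ?_
  have := hD.ne'
  field_simp
  ring

/-- the limit at `T = 1` of a combination of such a function and a polynomial -/
theorem Lim1.of_eq {N M : Q4} {Ql Q' q : List ℤ} {c : ℤ} {L : ℝ}
    (hQ : ∀ T ∈ Ioo (0 : ℝ) 1, ev Ql T ≠ 0) (hQ' : ∀ T ∈ Ioo (0 : ℝ) 1, ev Q' T ≠ 0)
    (h : Q4.eq (N.mulp Q') (((M.mulp Ql).smul c).add ⟨mulL (mulL Ql q) Q', [], [], []⟩) = true)
    (hM : Lim1 M Q' L) : Lim1 N Ql (c * L + ev q 1) := by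
  have h3 : Tendsto (ev q) (𝓝[<] 1) (𝓝 (ev q 1)) :=
    ((continuous_ev q).tendsto 1).mono_left nhdsWithin_le_nhds
  refine ((hM.const_mul (c : ℝ)).add h3).congr' ?_
  filter_upwards [ev_Ioo] with T hT
  have h1 := G4_of_eq h T
  rw [G4_mulp, G4_add, G4_smul, G4_mulp] at h1
  have h2 : G4 ⟨mulL (mulL Ql q) Q', [], [], []⟩ T = ev Ql T * ev q T * ev Q' T := by
    simp only [G4, ev_mulL, ev_nil]
    ring
  rw [h2] at h1
  have a1 := hQ T hT
  have a2 := hQ' T hT
  field_simp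
  linear_combination -h1

/-- a polynomial column -/
theorem Lim1.of_poly {N : Q4} {Ql q : List ℤ} (hQ : ∀ T ∈ Ioo (0 : ℝ) 1, ev Ql T ≠ 0)
    (h : Q4.eq N ⟨mulL Ql q, [], [], []⟩ = true) : Lim1 N Ql (ev q 1) := by
  have h3 : Tendsto (ev q) (𝓝[<] 1) (𝓝 (ev q 1)) :=
    ((continuous_ev q).tendsto 1).mono_left nhdsWithin_le_nhds
  refine h3.congr' ?_
  filter_upwards [ev_Ioo] with T hT
  have h1 := G4_of_eq h T
  have h2 : G4 ⟨mulL Ql q, [], [], []⟩ T = ev Ql T * ev q T := by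
    simp only [G4, ev_mulL, ev_nil]
    ring
  rw [h1, h2]
  have a1 := hQ T hT
  field_simp

lemma continuousOn_ext {N : Q4} {Ql kap : List ℤ} {L1 : ℝ}
    (hk : eqL (mulL DelL (derL Ql)) (mulL kap Ql) = true)
    (hQ : ∀ T ∈ Ico (0 : ℝ) 1, ev Ql T ≠ 0) (h : okLog N = true) (h1 : Lim1 N Ql L1) :
    ContinuousOn (ext N Ql L1) (Icc 0 1) := by
  have hmid : ∀ T ∈ Ioo (0 : ℝ) 1, ext N Ql L1 T = G4 N T / ev Ql T :=
    fun T hT => ext_mid hT.1 hT.2
  have hlim0 := tendsto_ext_zero (L1 := L1) h (hQ 0 ⟨le_rfl, one_pos⟩)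
  have hlim1 : Tendsto (ext N Ql L1) (𝓝[<] 1) (𝓝 (ext N Ql L1 1)) := by
    rw [ext_one]
    refine h1.congr' ?_
    filter_upwards [ev_Ioo] with T hT
    rw [hmid T hT]
  intro T hT
  rcases hT.1.eq_or_lt with h2 | h2
  · rw [← h2]
    have h3 : ContinuousWithinAt (ext N Ql L1) (Ioi 0) 0 := hlim0
    have h4 : ContinuousWithinAt (ext N Ql L1) (Ici 0) 0 := continuousWithinAt_Ioi_iff_Ici.1 h3
    exact h4.mono Icc_subset_Ici_self
  · rcases hT.2.eq_or_lt with h3 | h3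
    · rw [h3]
      have h4 : ContinuousWithinAt (ext N Ql L1) (Iio 1) 1 := hlim1
      have h5 : ContinuousWithinAt (ext N Ql L1) (Iic 1) 1 := continuousWithinAt_Iio_iff_Iic.1 h4
      exact h5.mono Icc_subset_Iic_self
    · have h4 : ContinuousAt (fun T => G4 N T / ev Ql T) T :=
        (hasDerivAt_G4_divL hk N h2 h3 (hQ T ⟨h2.le, h3⟩)).continuousAt
      have h5 : ContinuousAt (ext N Ql L1) T := by
        refine h4.congr ?_
        filter_upwards [Ioo_mem_nhds h2 h3] with x hx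
        rw [hmid x hx]
      exact h5.continuousWithinAt

/-- `(1 - T) ^ k` -/
def omL (k : ℕ) : List ℤ :=
  Nat.rec (motive := fun _ => List ℤ) [1] (fun _ ih => mulL [1, -1] ih) k

lemma ev_omL (k : ℕ) (T : ℝ) : ev (omL k) T = (1 - T) ^ k := by
  induction k with
  | zero =>
    change ev [1] T = _
    simp
  | succ k ih =>
    change ev (mulL [1, -1] (omL k)) T = _
    rw [ev_mulL, ih, pow_succ]
    simp only [ev_cons, ev_nil]
    push_cast
    ring

/-- the limit at `T = 1` from an approximation with a power of `1 - T` -/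
theorem Lim1.of_bdh {N : Q4} {Ql B : List ℤ} {D E : ℝ} (hD : 0 < D) {h : ℕ} (hh : h ≠ 0)
    (hE : 0 ≤ E)
    (hb : ∀ T, 0 < T → T < 1 → |D * (G4 N T / ev Ql T) - ev B T| ≤ E * (1 - T) ^ h) :
    Lim1 N Ql (ev B 1 / D) := by
  refine Lim1.of_bd hD fun T h0 h1 => (hb T h0 h1).trans (mul_le_mul_of_nonneg_left ?_ hE)
  exact pow_le_of_le_one (by linarith) (by linarith) hh

lemma ev_one_list (l : List ℤ) : ev l 1 = (l.sum : ℤ) := by
  induction l with
  | nil => simp
  | cons a l ih =>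
    rw [ev_cons, ih, List.sum_cons]
    push_cast
    ring


end

end Vale.Agent.P224.S13
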