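import Vale.Agent.P224.S13.DatZ
import Vale.Agent.P224.S13.RegX

/-!
The value terms of the certificate data: regularity, exponents, flux, values at `T = 0`, the
pointwise inequality.
-/

namespace Vale.Agent.P224.S13

open Vale.Agent.P224.SP Vale.Agent.P224.UE Vale.Agent.P224.POS Vale.Agent.P224.PO
  Vale.Agent.P224.SO Set Filter Real
open scoped RealInnerProductSpace Topology

noncomputable section

/-! ### Powers of `1 - T` -/

/-- the power of `1 - T` that the exponents require -/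
def kK (K : VK) : ℕ := bif Nat.beq K.i 0 && Nat.beq K.j 0 then K.q - 7 - K.a
  else K.q - 6 - (K.a + K.i + K.j)

lemma ok_kK (K : VK) : (K.i = 0 ∧ K.j = 0 ∧ K.q = kK K + 6 + 1 + K.a)
    ∨ K.q ≤ kK K + 6 + (K.a + K.i + K.j) := by
  by_cases h : K.i = 0 ∧ K.j = 0
  · have e : kK K = K.q - 7 - K.a := by
      unfold kK
      rw [h.1, h.2]
      rfl
    rw [e]
    omega
  · have e : kK K = K.q - 6 - (K.a + K.i + K.j) := by
      unfold kK
      have h1 : (Nat.beq K.i 0 && Nat.beq K.j 0) = false := by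
        rw [← Bool.not_eq_true, Bool.and_eq_true]
        exact fun h2 => h ⟨Nat.eq_of_beq_eq_true h2.1, Nat.eq_of_beq_eq_true h2.2⟩
      rw [h1]
      rfl
    rw [e]
    omega

/-- the sums of the first coefficients -/
def psum : ℤ → List ℤ → List ℤ
  | _, [] => []
  | s, a :: l => (s + a) :: psum (s + a) l

/-- the quotient by `(1 - T) ^ k` -/
def divK (k : ℕ) (l : List ℤ) : List ℤ :=
  Nat.rec (motive := fun _ => List ℤ) l (fun _ ih => psum 0 ih) k

/-- the quotient of a free value column -/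
def VFz.h (x : VFz) : List ℤ := divK (kK x.K) x.p

/-- the test of a free value column -/
def VFz.ok (x : VFz) : Bool := eqL (mulL (omL (kK x.K)) x.h) x.p

/-- the test of a base value column -/
def VBz.ok (dl kap : List ℤ) (x : VBz) : Bool :=
  (Nat.beq (kK x.K) 0 && okLog x.N0) && Q4.eq (dQk kap x.N0) (x.N1.mulp DelL)

/-- the limit at `T = 1` of a base value column -/
def VBz.L1 (DD : ℕ) (x : VBz) : ℝ := ((x.B0.sum : ℤ) : ℝ) / DD

/-- the coefficient function with its limits -/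
def VBz.ge (dl : List ℤ) (DD : ℕ) (x : VBz) : ℝ → ℝ := ext x.N0 dl (x.L1 DD)

/-- the power of `1 - T` and the limit -/
def κB (DD : ℕ) (x : VBz) : ℕ × ℝ := (0, √14 * x.L1 DD / √42 ^ (x.K.i + x.K.j))

/-- the power of `1 - T` and the limit -/
def κF (c0 : ℕ) (x : VFz) : ℕ × ℝ :=
  (kK x.K, √14 * (((x.h.sum : ℤ) : ℝ) / c0) / √42 ^ (x.K.i + x.K.j))

/-- the value columns with their functions, extended by their limits -/
def lVE (dl : List ℤ) (c0 DD kB kF : ℕ) (lb : List VBz) (lf : List VFz) :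
    List (VZ × (ℝ → ℝ) × (ℝ → ℝ) × ℕ × ℝ) :=
  (lb.map fun x => (x.z c0 kB, x.ge dl DD, x.g' dl, κB DD x))
    ++ lf.map fun x => (x.z dl kF, x.g c0, x.g' c0, κF c0 x)

/-- the value columns as value terms -/
theorem lVE_VE (dl : List ℤ) (c0 DD kB kF : ℕ) (lb : List VBz) (lf : List VFz) :
    (lVE dl c0 DD kB kF lb lf).map toVE
      = (lb.map fun x => (⟨x.K, x.ge dl DD, x.g' dl, (κB DD x).1, (κB DD x).2, [], []⟩ : VE))
        ++ lf.map fun x => (⟨x.K, x.g c0, x.g' c0, (κF c0 x).1, (κF c0 x).2, [], []⟩ : VE) := by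
  unfold lVE
  rw [List.map_append, List.map_map, List.map_map]
  rfl

/-! ### Regularity -/

section

variable {dl kap : List ℤ} {x : VBz} {DD : ℕ}

theorem VBz.reg (hk : eqL (mulL DelL (derL dl)) (mulL kap dl) = true)
    (hdl : ∀ T ∈ Ico (0 : ℝ) 1, ev dl T ≠ 0) (h : x.ok dl kap = true)
    (h1 : Lim1 x.N0 dl (x.L1 DD)) :
    ∀ t ∈ x.K.gts (x.ge dl DD) (x.g' dl) (κB DD x).1 (κB DD x).2, t.Reg := by
  have hdl' : ∀ T ∈ Ioo (0 : ℝ) 1, ev dl T ≠ 0 := fun T hT => hdl T ⟨hT.1.le, hT.2⟩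
  unfold VBz.ok at h
  rw [Bool.and_eq_true, Bool.and_eq_true] at h
  obtain ⟨⟨-, hlog⟩, hder⟩ := h
  have hce := continuousOn_ext (L1 := x.L1 DD) hk hdl hlog h1
  have key := x.K.reg (g := x.ge dl DD) (g' := x.g' dl) (gh := ext x.N0 dl (x.L1 DD)) 0
    (measurable_ext _ _ _) ((measurable_G4 _).div (measurable_ev _)) hce
    (ContinuousOn.div (fun T hT => (hasDerivAt_G4 x.N1 hT.1 hT.2).continuousAt.continuousWithinAt)
      (continuous_ev dl).continuousOn hdl') (fun T hT => ?_)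
    (fun T _ => by rw [pow_zero, one_mul]; rfl) hce
  · rw [ext_one] at key
    exact key
  · have hd := hasDerivAt_G4_divL hk x.N0 hT.1 hT.2 (hdl' T hT)
    have hd2 : HasDerivAt (x.ge dl DD) (G4 (dQk kap x.N0) T / (Del T * ev dl T)) T := by
      refine hd.congr_of_eventuallyEq ?_
      filter_upwards [Ioo_mem_nhds hT.1 hT.2] with u hu
      exact ext_mid hu.1 hu.2
    refine hd2.congr_deriv ?_
    have h2 := G4_of_eq hder T
    rw [G4_mulp, ev_DelL] at h2
    unfold VBz.g'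
    rw [h2]
    have hD := (Del_pos hT.1 hT.2).ne'
    have := hdl' T hT
    field_simp

theorem VFz.reg (c0 : ℕ) {x : VFz} (h : x.ok = true) :
    ∀ t ∈ x.K.gts (x.g c0) (x.g' c0) (κF c0 x).1 (κF c0 x).2, t.Reg := by
  have hc : Continuous fun T => ev x.h T / (c0 : ℝ) := (continuous_ev _).div_const _
  have key := x.K.reg (g := x.g c0) (g' := x.g' c0) (gh := fun T => ev x.h T / (c0 : ℝ)) (kK x.K)
    ((measurable_ev _).div_const _) ((measurable_ev _).div_const _)
    ((continuous_ev _).div_const _).continuousOn ((continuous_ev _).div_const _).continuousOn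
    (fun T _ => (hasDerivAt_ev x.p T).div_const _) (fun T _ => ?_) hc.continuousOn
  · have e : ev x.h 1 / (c0 : ℝ) = ((x.h.sum : ℤ) : ℝ) / c0 := by rw [ev_one_list]
    simp only [e] at key
    exact key
  · have h2 := ev_of_eqL h T
    rw [ev_mulL, ev_omL] at h2
    unfold VFz.g
    rw [← h2]
    ring

/-- **The regularity of all value terms.** -/
theorem reg_E (hk : eqL (mulL DelL (derL dl)) (mulL kap dl) = true)
    (hdl : ∀ T ∈ Ico (0 : ℝ) 1, ev dl T ≠ 0) {c0 kB kF : ℕ} {lb : List VBz} {lf : List VFz}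
    (hb : (lb.all (VBz.ok dl kap)) = true) (hf : (lf.all VFz.ok) = true)
    (hL : ∀ x ∈ lb, Lim1 x.N0 dl (x.L1 DD)) :
    ∀ t ∈ lGZ (lVE dl c0 DD kB kF lb lf), t.Reg := by
  intro t ht
  unfold lGZ at ht
  obtain ⟨y, hy, hty⟩ := List.mem_flatMap.1 ht
  unfold lVE at hy
  rcases List.mem_append.1 hy with hy | hy
  · obtain ⟨u, hu, rfl⟩ := List.mem_map.1 hy
    exact VBz.reg hk hdl (List.all_eq_true.1 hb u hu) (hL u hu) t hty
  · obtain ⟨u, hu, rfl⟩ := List.mem_map.1 hy
    exact VFz.reg c0 (List.all_eq_true.1 hf u hu) t hty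

end

/-! ### Exponents -/

lemma ok_gts {K : VK} {g g' : ℝ → ℝ} {lim : ℝ} : ∀ t ∈ K.gts g g' (kK K) lim, t.ok 6 := by
  intro t ht
  have h2 := ok_kK K
  unfold VK.gts at ht
  rcases List.mem_cons.1 ht with rfl | ht
  · rcases h2 with h2 | h2
    · exact Or.inl ⟨h2.1, h2.2.1, h2.2.2⟩
    · exact Or.inr h2
  · rcases List.mem_cons.1 ht with rfl | ht
    · rcases h2 with h2 | h2
      · exact Or.inl ⟨h2.2.1, h2.1, h2.2.2⟩
      · refine Or.inr (h2.trans (le_of_eq ?_))
        change kK K + 6 + (K.a + K.i + K.j) = kK K + 6 + (K.a + K.j + K.i)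
        omega
    · exact absurd ht List.not_mem_nil

lemma kK_of_ok {dl kap : List ℤ} {x : VBz} (h : x.ok dl kap = true) : kK x.K = 0 := by
  unfold VBz.ok at h
  rw [Bool.and_eq_true, Bool.and_eq_true] at h
  exact Nat.eq_of_beq_eq_true h.1.1

/-- **The exponents of all value terms.** -/
theorem ok_E {dl kap : List ℤ} {c0 DD kB kF : ℕ} {lb : List VBz} {lf : List VFz}
    (hb : (lb.all (VBz.ok dl kap)) = true) :
    ∀ t ∈ lGZ (lVE dl c0 DD kB kF lb lf), t.ok 6 := by
  intro t ht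
  unfold lGZ at ht
  obtain ⟨y, hy, hty⟩ := List.mem_flatMap.1 ht
  unfold lVE at hy
  rcases List.mem_append.1 hy with hy | hy
  · obtain ⟨u, hu, rfl⟩ := List.mem_map.1 hy
    have h0 : t ∈ u.K.gts (u.ge dl DD) (u.g' dl) 0 (κB DD u).2 := hty
    rw [← kK_of_ok (List.all_eq_true.1 hb u hu)] at h0
    exact ok_gts t h0
  · obtain ⟨u, hu, rfl⟩ := List.mem_map.1 hy
    exact ok_gts t hty

/-! ### The inequality -/

/-- columns with the same functions at `T` -/
lemma gS'_congr {α : Type*} {f₁ f₂ : α → VZ × (ℝ → ℝ) × (ℝ → ℝ) × ℕ × ℝ} {l : List α} {T : ℝ}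
    (d : R9) (h : ∀ x ∈ l, (f₁ x).1.K = (f₂ x).1.K ∧ (f₁ x).2.1 T = (f₂ x).2.1 T
      ∧ (f₁ x).2.2.1 T = (f₂ x).2.2.1 T) :
    gS' ((lGZ (l.map f₁)).map GT.v) T d = gS' ((lGZ (l.map f₂)).map GT.v) T d := by
  induction l with
  | nil => rfl
  | cons x l ih =>
    have e : ∀ f : α → VZ × (ℝ → ℝ) × (ℝ → ℝ) × ℕ × ℝ,
        lGZ ((x :: l).map f) = gZ (f x) ++ lGZ (l.map f) := fun f => rfl
    rw [e, e, List.map_append, List.map_append, gS'_append, gS'_append,
      ih fun u hu => h u (List.mem_cons_of_mem _ hu)]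
    congr 1
    obtain ⟨h1, h2, h3⟩ := h x List.mem_cons_self
    simp only [gZ, gS', VK.gts, List.map_cons, List.map_nil, List.sum_cons, List.sum_nil,
      VTm.g', GT.v, GT.Q, VK.phi, VK.phi', h1, h2, h3]

lemma lGZ_append (l l' : List (VZ × (ℝ → ℝ) × (ℝ → ℝ) × ℕ × ℝ)) :
    lGZ (l ++ l') = lGZ l ++ lGZ l' := by
  unfold lGZ
  rw [List.flatMap_append]

/-- the extended columns have the same values in `(0, 1)` -/
theorem gS'_lVE {dl : List ℤ} {c0 DD kB kF : ℕ} {lb : List VBz} {lf : List VFz} {T : ℝ}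
    (hT : T ∈ Ioo (0 : ℝ) 1) (d : R9) :
    gS' ((lGZ (lVE dl c0 DD kB kF lb lf)).map GT.v) T d
      = gS' ((lGZ (lVD dl c0 kB kF lb lf (κB DD) (κF c0))).map GT.v) T d := by
  unfold lVE lVD
  rw [lGZ_append, lGZ_append, List.map_append, List.map_append, gS'_append, gS'_append]
  congr 1
  exact gS'_congr d fun x _ => ⟨rfl, ext_mid hT.1 hT.2, rfl⟩

/-! ### The flux -/

/-- `42 kq` -/
def kz : ℕ → ℕ → ℤ
  | 0, q => if q = 7 then 1344
      else if q = 8 then 96
      else if q = 9 then 18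
      else if q = 10 then 5 else 0
  | a + 1, q => kz a (q - 1) - kz a q

lemma kz_eq (a q : ℕ) : (kq a q : ℝ) = (kz a q : ℝ) / 42 := by
  induction a generalizing q with
  | zero =>
    simp only [kq, kz]
    split_ifs <;> norm_num
  | succ a ih =>
    rw [kq, kz]
    push_cast
    rw [ih, ih]
    ring

/-- the flux test of a column with the sum `s` -/
def flK (K : VK) (s : ℤ) : ℤ :=
  bif (Nat.beq K.i 0 && Nat.beq K.j 0) && Nat.beq K.q (kK K + 7 + K.a) then s * kz K.a K.q else 0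

lemma flK_eq {x : VE} {s : ℤ} {D : ℝ} (hq : x.K.q ≤ 10) (hk : x.k = kK x.K)
    (hlim : x.lim = √14 * (s / D) / √42 ^ (x.K.i + x.K.j)) :
    (if isFl x then x.lim * kap2 13 x.K.a x.K.q else 0)
      = √14 * √2 * ((flK x.K s : ℤ) / (42 * D)) := by
  by_cases h : isFl x
  · have hb : ((Nat.beq x.K.i 0 && Nat.beq x.K.j 0) && Nat.beq x.K.q (kK x.K + 7 + x.K.a))
        = true := by
      obtain ⟨h1, h2, h4⟩ := h
      rw [hk] at h4
      rw [Bool.and_eq_true, Bool.and_eq_true]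
      refine ⟨⟨?_, ?_⟩, ?_⟩
      · rw [Nat.beq_eq]
        exact h1
      · rw [Nat.beq_eq]
        exact h2
      · rw [Nat.beq_eq]
        omega
    have e : flK x.K s = s * kz x.K.a x.K.q := by
      unfold flK
      rw [hb]
      rfl
    rw [if_pos h, e, hlim]
    obtain ⟨h1, h2, h4⟩ := h
    rw [kap2_m (by omega) hq, h1, h2, kz_eq, pow_zero, div_one]
    push_cast
    ring
  · have hb : ((Nat.beq x.K.i 0 && Nat.beq x.K.j 0) && Nat.beq x.K.q (kK x.K + 7 + x.K.a))
        = false := by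
      rw [← Bool.not_eq_true, Bool.and_eq_true, Bool.and_eq_true]
      rintro ⟨⟨h1, h2⟩, h4⟩
      refine h ⟨Nat.eq_of_beq_eq_true h1, Nat.eq_of_beq_eq_true h2, ?_⟩
      have := Nat.eq_of_beq_eq_true h4
      rw [hk]
      omega
    have e : flK x.K s = 0 := by
      unfold flK
      rw [hb]
      rfl
    rw [if_neg h, e]
    simp

/-- the flux of a list of columns -/
lemma flux_list {α : Type*} {f : α → VE} {K : α → VK} {s : α → ℤ} {D : ℝ} {l : List α}
    (h : ∀ x ∈ l, (f x).K = K x ∧ (f x).K.q ≤ 10 ∧ (f x).k = kK (f x).K ∧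
      (f x).lim = √14 * (s x / D) / √42 ^ ((f x).K.i + (f x).K.j)) :
    ((l.map f).map fun x => if isFl x then x.lim * kap2 13 x.K.a x.K.q else 0).sum
      = √14 * √2 * (((l.map fun x => flK (K x) (s x)).sum : ℤ) / (42 * D)) := by
  induction l with
  | nil => simp
  | cons x l ih =>
    obtain ⟨h1, h2, h3, h4⟩ := h x List.mem_cons_self
    rw [List.map_cons, List.map_cons, List.sum_cons, List.map_cons, List.sum_cons,
      ih fun u hu => h u (List.mem_cons_of_mem _ hu), flK_eq h2 h3 h4, h1]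
    push_cast
    ring

/-- the flux of the base columns -/
def flB (lb : List VBz) : ℤ := (lb.map fun x => flK x.K x.B0.sum).sum

/-- the flux of the free columns -/
def flF (lf : List VFz) : ℤ := (lf.map fun x => flK x.K x.h.sum).sum

/-- **The flux.** -/
theorem flux_E {dl kap : List ℤ} {c0 DD kB kF : ℕ} {lb : List VBz} {lf : List VFz}
    (hb : (lb.all (VBz.ok dl kap)) = true) (hqb : ∀ x ∈ lb, x.K.q ≤ 10)
    (hqf : ∀ x ∈ lf, x.K.q ≤ 10) {P Q : ℤ} (hP : P ≠ 0) (h1 : P * flB lb = Q * (42 * DD))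
    (hDD : 0 < DD) (h2 : flF lf = 0) :
    OT.fluxC 13 6 (lGZ (lVE dl c0 DD kB kF lb lf)) = √14 * √2 * (Q / P) := by
  rw [lGZ_eq, flux_lG, lVE_VE, List.map_append, List.sum_append,
    flux_list (K := fun x : VBz => x.K) (s := fun x : VBz => x.B0.sum) (D := (DD : ℝ))
      (fun x hx => ⟨rfl, hqb x hx, (kK_of_ok (List.all_eq_true.1 hb x hx)).symm, rfl⟩),
    flux_list (K := fun x : VFz => x.K) (s := fun x : VFz => x.h.sum) (D := (c0 : ℝ))
      (fun x hx => ⟨rfl, hqf x hx, rfl, rfl⟩)]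
  have e1 : (P : ℝ) * ((lb.map fun x => flK x.K x.B0.sum).sum : ℤ) = Q * (42 * DD) := by
    exact_mod_cast h1
  have e2 : (((lf.map fun x => flK x.K x.h.sum).sum : ℤ) : ℝ) = 0 := by
    exact_mod_cast h2
  rw [e2]
  have e3 : (((lb.map fun x => flK x.K x.B0.sum).sum : ℤ) : ℝ) / (42 * DD) = Q / P := by
    have h3 : (DD : ℝ) ≠ 0 := by exact_mod_cast hDD.ne'
    have h4 : (P : ℝ) ≠ 0 := by exact_mod_cast hP
    rw [div_eq_div_iff (mul_ne_zero (by norm_num) h3) h4]
    linarith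
  rw [e3, zero_div, mul_zero, add_zero]

/-! ### The values at `T = 0` -/

/-- the exponents and the constant coefficients -/
def key0 (x : VBz) : VK × ℤ × ℤ × ℤ :=
  (x.K, x.N0.n0.headD 0, x.N0.n1.headD 0 + x.N0.n3.headD 0, x.N0.n3.headD 0)

/-- the values at `T = 0` of the base columns -/
theorem zero_B {dl : List ℤ} {DD : ℕ} {lb : List VBz} {kap : List ℤ}
    (hb : (lb.all (VBz.ok dl kap)) = true) {l0 : List (VK × ℤ × ℤ × ℤ)}
    (hk : lb.map key0 = l0) : (lb.map fun x => (x.K, x.ge dl DD 0)) = l0.map fun y =>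
      (y.1, ((y.2.1 : ℝ) + (y.2.2.1 : ℝ) / 2 * ll - (y.2.2.2 : ℝ) * KK) / ev dl 0) := by
  rw [← hk, List.map_map]
  refine List.map_congr_left fun x hx => ?_
  have h1 := List.all_eq_true.1 hb x hx
  unfold VBz.ok at h1
  rw [Bool.and_eq_true, Bool.and_eq_true] at h1
  have h2 := lim0_eq h1.1.2
  unfold VBz.ge
  rw [ext_zero, h2, ev_zero x.N0.n0, ev_zero x.N0.n1, ev_zero x.N0.n3]
  simp only [Function.comp_apply, key0]
  push_cast
  rfl

/-- the values at `T = 0` of the free columns -/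
theorem zero_F {c0 : ℕ} (lf : List VFz) :
    (lf.map fun x => (x.K, x.g c0 0))
      = (lf.map fun x => (x.K, x.p.headD 0)).map fun y => (y.1, ((y.2 : ℤ) : ℝ) / c0) := by
  rw [List.map_map]
  refine List.map_congr_left fun x _ => ?_
  simp only [VFz.g, ev_zero, Function.comp_apply]

end

end Vale.Agent.P224.S13
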