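import Vale.Agent.P224.SP.Right5
import Vale.Agent.P224.S13.Fun13

/-!
Models of the scalar functions on `(1/4, 1)`, `m = 13`.
-/

namespace Vale.Agent.P224.S13

open Set Real Vale.Agent.P224.SP

/-- model of `f1` near `1` -/
@[irreducible] def rq1 : List ℤ :=
  [3559643244943082672005359989696117063268, -42073492670394476251319868075079840914056,
  783034320598445691648703310796499324927799, -12397810355924507783838650853808742433442058,
  160127410726744347185001760619610385200371206, -1707145419460212978464112963635213148318129734,
  15276626972809189351138106148240334026263237453,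
  -116473364217342353891269471351607284189460907359,
  766044876811292676637239459651115294492164028863,
  -4390546078354859945185139242355703652815925634679,
  22112134082061717528089726804268541196310825672798,
  -98528431291678800389031511800202891587970430652405,
  390630093334337269865803755328800352251640543694709,
  -1384443489568981580676550669889549835149172886669617,
  4403233210284980563684833695526812317501793394379947,
  -12607825914857178812761863767840750453823318439306509,
  32584478610015617602064820749301965391930184835540319,
  -76170961988141597635093456599895774534243175897813556,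
  161317547938410880895224706810661242519018803122061596,
  -309891120416356821278687887148071840229993708132271996,
  540408401979102915089424807812440413406619344919040144,
  -855866741337385067061644611264768426241432462571870309,
  1231078526148672879767525625612465443915681480721924054,
  -1607768330135270837140784714675958568413275426015878755,
  1905089139821526995424189326221429407334554343908523380,
  -2045887613552808060742764330380469564173920301064137118,
  1988172742635762609328108870034395149279171186022172973,
  -1744836160907426644811623622061254184357785566194928248,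
  1379335625105129304662653052521279042476309096118474938,
  -979071978494007889637556200353448412694556127363104403,
  621559358160711950698401066994970853745845403480426218,
  -351221686870769873972540949733174268139764227264445025,
  175606782606055269630195106664824635671484186948614406,
  -77124062915758111460026524758438959624909665348247860,
  29482925855240126735559680833807227567238322608066674,
  -9697841838939660292096008910114380068362189367616075,
  2704152026981792612420871126794225435467652079577851,
  -626660938893440345298182702313255413793470348479125,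
  117429501568283543315338347996611209964000674766268,
  -17094346312944227023901167855935935103004459158954,
  1813558634025528327925702094932739216255924236308,
  -124724088159202747740000200192226373513150310751,
  4172974062551719881891401606352632169717117420]

/-- denominator -/
@[irreducible] def rD1 : ℤ := 570715299000000000000000000000000000000

/-- error -/
@[irreducible] def rE1 : ℤ := 5707152990000000000000001

/-- model of `f2` near `1` -/
@[irreducible] def rq2 : List ℤ :=
  [42050045917549851632530719652140933373732031, -566576279643025088054812137445755935295023621,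
  10405479140829669936059465356093802901594878256,
  -164219023810787017682229200602272873696833873563,
  2118688381324233105333869190649772434878904420525,
  -22575607525976261181584142288974293141911072408696,
  201956888345604373254619474046877849459832414222469,
  -1539453711535711302487787879750026780307732770354385,
  10123470567426303237723188776658612610371488475416323,
  -58015676196722995799888238824664220050183474601103016,
  292159486580984342699139969988253083787001343198887207,
  -1301730362999875559219034540214581297080899107738764205,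
  5160607492674147948036419779415182412019537491824718262,
  -18289008915210012575398248524906344751089541520625085988,
  58166055779765503745888788356402842071039062855898946529,
  -166541939428181807708709075890317386516638873658999867534,
  430409325384286043774042457047000993640792868546345515339,
  -1006119201908864585375083108487156431222982784329179984782,
  2130747766204819036191404964123630268677415683785484262212,
  -4093088196473948752202791626603357747867214494467703299337,
  7137671161058151707506038879962358941567391496270923013188,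
  -11304044453418215196304990836494734294354617817498875539133,
  16259508092515748701857702807626405888823231581357223120639,
  -21234382673142061425356505325101524057110917176180582639097,
  25160919082065366852047691389931471895648816066169649684012,
  -27020192865595592417548645336075831248414415666811623069062,
  26257697886887696843419475362754955094722857589495429145266,
  -23043762350302305509076235711985823880095149215664262338427,
  18216510745916155149518447594181994405473727401303060423000,
  -12930241591525651379933876547964955665469629914478411444968,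
  8208648271232712883788370259669174526383885828498784472014,
  -4638393596714775003082058278215746933267192220235707026235,
  2319129456203801096036825430800808226555864470330253107147,
  -1018523878329844248309662230498224365618453672977320170652,
  389358503502145724942164149982094566495736426395595099403,
  -128071381787422904632148804973722522249633770408739054346,
  35711340226420000067773039165583300347308822160448705247,
  -8275720960572734372993070317259357619745145300506887449,
  1550774712084737812167476611252761441836334847531783605,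
  -225747199893057575993758263484351128474490433769769383,
  23949692965070674528415807956528477727397594990721638,
  -1647089685159110832217035592670601675242619695230137,
  55107566820910183800403676985506337409962908659704]

/-- denominator -/
@[irreducible] def rD2 : ℤ := 3744463076739000000000000000000000000000000

/-- error -/
@[irreducible] def rE2 : ℤ := 37444630767390000000000000001

/-- model of `f3` near `1` -/
@[irreducible] def rq3 : List ℤ :=
  [1594822903793996815061013886012944146, -25856577739546865487987202082530705852,
  482721697031191141979579522700056051241, -7651787095256769579911694399786275492942,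
  98859840534040760764231432946313925218403, -1054107458571114254073413875868512425474201,
  9433563523724640575395470838351915860687606, -71927799133982167022542506790743409826901189,
  473085478611661947996942730227488674471021323, -2711534881439230116288590193757885254968480325,
  13656391306104538575799481023126998714539910813,
  -60851837403487376038978705732978825590955223415,
  241258911549995834218478627284941063116230018650,
  -855061743909925432403814974745277143543635740902,
  2719554533397294684223117303626310756958456710920,
  -7786988891595636777526140979327145583968050254486,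
  20125326691182625668812035524636552389972442841302,
  -47046145296774677666065195636784624644376691104628,
  99636475573623560046163765312382789300260512302694,
  -191402570500193065649660763978679449927163354074666,
  333781609689856412614290628551781528998751737211050,
  -528625321758557906908297665411920029678115994462573,
  760376902587640526163033945911910223253949564968472,
  -993042525291393041776882779036433504913069057106168,
  1176686529561892005429758028255169337816521383377709,
  -1263654236950849767228149796690998757418006565790642,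
  1228008909878778462551077105727640899551952323514727,
  -1077712441828398650074920528761508749251122468901869,
  851959539011663676190080817248408945941648848331601,
  -604733949835654460323547676626189916029165505299400,
  383913158946850408394624380935125557226849405496714,
  -216936347488674098328975441446719102760003171823243,
  108465807186623146142097742148794192895637275183853,
  -47636735796066075157881028326557752118540966516238,
  18210554381019132185468040492017419068439098376245,
  -5990018227769044473337183616529948271282964600118,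
  1670261926768286394248136536619288532281702182508,
  -387067320933213263624817526341395180695267413516,
  72532304857928546096696462246846648901944888112,
  -10558618915399295996289909799856559285503154456,
  1120176750872784635548868398078219903774647279, -77038107923157933646787261226395962785927555,
  2577515317739667044438750642811589398563016]

/-- denominator -/
@[irreducible] def rD3 : ℤ := 352947000000000000000000000000000000

/-- error -/
@[irreducible] def rE3 : ℤ := 3529470000000000000001

/-- model of `f4` near `1` -/
@[irreducible] def rq4 : List ℤ :=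
  [1122299931107962623834282870645139939, 604315346352520110129375349054456057,
  -119534885036626873987778689071810557, 64364754288453540150089320775482783,
  -41022409169583330708167011757188537, 28937560768117564765669271584501701,
  -21768657654855992694965188807377979, 17064840897188075504845404510127238,
  -13674259702956034577981615721087760, 10958985382576285280431858890368950,
  -8550265051007607731645594707236282, 6295093801230138734509656878585593,
  -4234159824207162845938892039037311, 2521301984873992054896786872755053,
  -1289553287737144161143720460171019, 549324675300515204864591990695068,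
  -188210447360427405148420930906161, 49585133721608524408950563524815,
  -9395064769849505911257722083091, 1136687962052038724718702914966,
  -65840802082603418389251653466]

/-- denominator -/
@[irreducible] def rD4 : ℤ := 1529437000000000000000000000000000000

/-- error -/
@[irreducible] def rE4 : ℤ := 1529437000000000000001

/-- `f3c = b13 (L13 - L13 1)` -/
noncomputable def f3c (T : ℝ) : ℝ := b13 T * (L13 T - L13 1)

/-- `f4 = sqrt (7/13) b13` -/
noncomputable def f4 (T : ℝ) : ℝ := √(7 / 13) * b13 T

/-- radicands -/
def r1L : List ℤ := [13, -12, -1]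
/-- radicand of `y1 y2` (times 169) -/
def r12L : List ℤ := [169, 0, -170, 0, 1]
/-- radicand of `b13` (times 13) -/
def r3L : List ℤ := [13, 14, 1]

lemma ev_r1L (T : ℝ) : ev r1L T = (1 - T) * (13 + T) := by
  simp only [r1L, ev_cons, ev_nil]; push_cast; ring
lemma ev_r12L (T : ℝ) : ev r12L T = (1 - T ^ 2) * (169 - T ^ 2) := by
  simp only [r12L, ev_cons, ev_nil]; push_cast; ring
lemma ev_r3L (T : ℝ) : ev r3L T = (1 + T) * (13 + T) := by
  simp only [r3L, ev_cons, ev_nil]; push_cast; ring

lemma y1_one : y1 1 = 0 := by unfold y1; rw [qR_1]; norm_num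
lemma y12_one : y12 1 = 0 := by unfold y12; rw [qR_12]; norm_num

lemma continuous_y1 : Continuous y1 := (continuous_qR _ _).sqrt
lemma continuous_b13 : Continuous b13 := (continuous_qR _ _).sqrt
lemma continuous_y12 : Continuous y12 := ((continuous_qR _ _).comp (continuous_pow 2)).sqrt

lemma continuousOn_l1 : ContinuousOn l1 (Ioc 0 1) :=
  continuousOn_qL (by norm_num) (fun _ hT => hT.1) fun _ hT => qD_1_pos hT.2

lemma continuousOn_L13 : ContinuousOn L13 (Ioi 0) :=
  continuousOn_qL (by norm_num) (fun _ hT => hT) fun _ hT => qD_3_pos hT

lemma continuousOn_L0 : ContinuousOn L0 (Ioc 0 1) := by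
  have h : ContinuousOn (qL (-170 / 169) (1 / 169) (84 / 169)) (Ioc 0 1) := by
    refine continuousOn_qL (by norm_num) (fun _ hT => hT.1) fun T hT => ?_
    unfold qD; linarith [hT.2]
  refine h.comp (continuous_pow 2).continuousOn fun T hT => ?_
  exact ⟨pow_pos hT.1 2, pow_le_one₀ hT.1.le hT.2⟩

lemma c1u : chkN 4 1 4 4 (smulL (-1) (cL r1L (upL rq1 rE1 7) (2 * 1 * 13 * rD1))) = true := by
  decide +kernel

lemma c1l : chkN 4 1 4 4 (cL r1L (loL rq1 rE1 7) (2 * 1 * 13 * rD1)) = true := by
  decide +kernel

lemma c2u : chkN 4 1 4 4 (smulL (-1) (cL r12L (upL rq2 rE2 7) (2 * 2 * 169 * rD2))) = true := by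
  decide +kernel

lemma c2l : chkN 4 1 4 4 (cL r12L (loL rq2 rE2 7) (2 * 2 * 169 * rD2)) = true := by
  decide +kernel

lemma c3u : chkN 4 1 4 4 (smulL (-1) (cG r3L (upL rq3 rE3 8) (2 * 1 * rD3))) = true := by
  decide +kernel

lemma c3l : chkN 4 1 4 4 (cG r3L (loL rq3 rE3 8) (2 * 1 * rD3)) = true := by
  decide +kernel

lemma c4a : chkN 1 1 4 4 (addL (smulL 169 (mulL (upL rq4 rE4 8) (upL rq4 rE4 8)))
      (smulL (-7 * (rD4 * rD4)) r3L)) = true := by
  decide +kernel

lemma c4b : chkN 1 1 4 4 (addL (smulL (-169) (mulL (loL rq4 rE4 8) (loL rq4 rE4 8)))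
      (smulL (7 * (rD4 * rD4)) r3L)) = true := by
  decide +kernel

lemma c4c : chkN 1 1 4 4 (upL rq4 rE4 8) = true := by
  decide +kernel

lemma ap_f1 : Ap SR wR f1 (13 * rD1) (mulL r1L rq1) (14 * rE1) := by
  intro T hT
  have hT0 : (0 : ℝ) < T := by linarith [hT.1]
  have hy := y1_pos hT0 hT.2
  have hk : (13 : ℝ) ≠ 0 := by norm_num
  have hyd : ∀ T ∈ Ioo (1 / 4 : ℝ) 1,
      HasDerivAt y1 (ev (derL r1L) T / (2 * ((13 : ℤ) : ℝ) * y1 T)) T := by
    intro x hx
    have hx0 : (0 : ℝ) < x := by linarith [hx.1]
    refine (hasDerivAt_y1 hx0 hx.2).congr_deriv ?_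
    have := (y1_pos hx0 hx.2).ne'
    simp only [r1L, derL, derAux, ev_cons, ev_nil]
    push_cast
    field_simp
    ring
  have hL : ∀ T ∈ Ioo (1 / 4 : ℝ) 1, HasDerivAt l1 (-((1 : ℤ) : ℝ) / (T * y1 T)) T := by
    intro x hx
    have hx0 : (0 : ℝ) < x := by linarith [hx.1]
    simpa using hasDerivAt_l1 hx0 hx.2
  have hy2 : ∀ T ∈ Ioo (1 / 4 : ℝ) 1, (((13 : ℤ) : ℝ)) * y1 T ^ 2 = ev r1L T := by
    intro x hx
    have hx0 : (0 : ℝ) < x := by linarith [hx.1]
    rw [y1_sq hx0 hx.2, ev_r1L]; push_cast; ring
  have hyc : ContinuousOn y1 (Ioc (1 / 4) 1) := continuous_y1.continuousOn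
  have hLc : ContinuousOn l1 (Ioc (1 / 4) 1) :=
    continuousOn_l1.mono (Ioc_subset_Ioc_left (by norm_num))
  have hyp : ∀ T ∈ Ioo (1 / 4 : ℝ) 1, 0 < y1 T := fun x hx =>
    y1_pos (by linarith [hx.1]) hx.2
  have hTc : T ∈ Ioc (1 / 4 : ℝ) 1 := ⟨hT.1, hT.2.le⟩
  have hu : (rD1 : ℝ) * l1 T ≤ y1 T * ev (upL rq1 rE1 7) T := by
    refine le_of_cL (k0 := 13) (n := 1) (a := 1 / 4) (by norm_num) (by norm_num) hyp hy2 hyd hL
      hyc hLc y1_one l1_one (fun x hx => ?_) hTc
    have h1 := c1u
    have h2 := chk_of_mem h1 (by norm_num) hx
    rw [ev_smulL] at h2; push_cast at h2 ⊢; linarith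
  have hl : y1 T * ev (loL rq1 rE1 7) T ≤ (rD1 : ℝ) * l1 T := by
    refine ge_of_cL (k0 := 13) (n := 1) (a := 1 / 4) (by norm_num) (by norm_num) hyp hy2 hyd hL
      hyc hLc y1_one l1_one (fun x hx => ?_) hTc
    have h1 := c1l
    exact chk_of_mem h1 (by norm_num) hx
  rw [ev_upL] at hu
  rw [ev_loL] at hl
  have hq := hy2 T hT
  rw [ev_mulL, ← hq]
  unfold f1 wR
  push_cast at hq ⊢
  rw [ev_r1L] at hq
  have hE : (0 : ℝ) ≤ rE1 := by
    have : (0 : ℤ) ≤ rE1 := by decide +kernel
    exact_mod_cast this
  have h1T : 0 < 1 - T := by linarith [hT.2]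
  have hw : 0 ≤ (rE1 : ℝ) * (1 - T) ^ 7 := mul_nonneg hE (pow_nonneg h1T.le 7)
  have hb : 13 * y1 T ^ 2 * ((rE1 : ℝ) * (1 - T) ^ 7) ≤ 14 * rE1 * (1 - T) ^ 8 := by
    have e1 : 14 * (rE1 : ℝ) * (1 - T) ^ 8 = (14 * (1 - T)) * (rE1 * (1 - T) ^ 7) := by ring
    rw [e1, hq]
    refine mul_le_mul_of_nonneg_right ?_ hw
    nlinarith [hT.2]
  rw [abs_le]
  constructor
  · nlinarith [mul_le_mul_of_nonneg_left hl (mul_nonneg (by norm_num : (0 : ℝ) ≤ 13) hy.le)]
  · nlinarith [mul_le_mul_of_nonneg_left hu (mul_nonneg (by norm_num : (0 : ℝ) ≤ 13) hy.le)]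

lemma ap_f2 : Ap SR wR f2 (169 * rD2) (mulL r12L rq2) (338 * rE2) := by
  intro T hT
  have hT0 : (0 : ℝ) < T := by linarith [hT.1]
  have hy := y12_pos hT0 hT.2
  have hyd : ∀ T ∈ Ioo (1 / 4 : ℝ) 1,
      HasDerivAt y12 (ev (derL r12L) T / (2 * ((169 : ℤ) : ℝ) * y12 T)) T := by
    intro x hx
    have hx0 : (0 : ℝ) < x := by linarith [hx.1]
    refine (hasDerivAt_y12 hx0 hx.2).congr_deriv ?_
    have := (y12_pos hx0 hx.2).ne'
    simp only [r12L, derL, derAux, ev_cons, ev_nil]
    push_cast
    field_simp
    ring
  have hL : ∀ T ∈ Ioo (1 / 4 : ℝ) 1, HasDerivAt L0 (-((2 : ℤ) : ℝ) / (T * y12 T)) T := by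
    intro x hx
    have hx0 : (0 : ℝ) < x := by linarith [hx.1]
    have := hasDerivAt_L0 hx0 hx.2
    push_cast
    exact this
  have hy2 : ∀ T ∈ Ioo (1 / 4 : ℝ) 1, (((169 : ℤ) : ℝ)) * y12 T ^ 2 = ev r12L T := by
    intro x hx
    have hx0 : (0 : ℝ) < x := by linarith [hx.1]
    rw [y12_sq hx0 hx.2, ev_r12L]; push_cast; ring
  have hyc : ContinuousOn y12 (Ioc (1 / 4) 1) := continuous_y12.continuousOn
  have hLc : ContinuousOn L0 (Ioc (1 / 4) 1) :=
    continuousOn_L0.mono (Ioc_subset_Ioc_left (by norm_num))
  have hyp : ∀ T ∈ Ioo (1 / 4 : ℝ) 1, 0 < y12 T := fun x hx =>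
    y12_pos (by linarith [hx.1]) hx.2
  have hTc : T ∈ Ioc (1 / 4 : ℝ) 1 := ⟨hT.1, hT.2.le⟩
  have hu : (rD2 : ℝ) * L0 T ≤ y12 T * ev (upL rq2 rE2 7) T := by
    refine le_of_cL (k0 := 169) (n := 2) (a := 1 / 4) (by norm_num) (by norm_num) hyp hy2 hyd hL
      hyc hLc y12_one L0_one (fun x hx => ?_) hTc
    have h1 := c2u
    have h2 := chk_of_mem h1 (by norm_num) hx
    rw [ev_smulL] at h2; push_cast at h2 ⊢; linarith
  have hl : y12 T * ev (loL rq2 rE2 7) T ≤ (rD2 : ℝ) * L0 T := by
    refine ge_of_cL (k0 := 169) (n := 2) (a := 1 / 4) (by norm_num) (by norm_num) hyp hy2 hyd hL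
      hyc hLc y12_one L0_one (fun x hx => ?_) hTc
    have h1 := c2l
    exact chk_of_mem h1 (by norm_num) hx
  rw [ev_upL] at hu
  rw [ev_loL] at hl
  have hq := hy2 T hT
  rw [ev_mulL, ← hq]
  unfold f2 wR
  push_cast at hq ⊢
  rw [ev_r12L] at hq
  have hE : (0 : ℝ) ≤ rE2 := by
    have : (0 : ℤ) ≤ rE2 := by decide +kernel
    exact_mod_cast this
  have h1T : 0 < 1 - T := by linarith [hT.2]
  have hw : 0 ≤ (rE2 : ℝ) * (1 - T) ^ 7 := mul_nonneg hE (pow_nonneg h1T.le 7)
  have hb : 169 * y12 T ^ 2 * ((rE2 : ℝ) * (1 - T) ^ 7) ≤ 338 * rE2 * (1 - T) ^ 8 := by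
    have e1 : 338 * (rE2 : ℝ) * (1 - T) ^ 8 = (338 * (1 - T)) * (rE2 * (1 - T) ^ 7) := by ring
    rw [e1, hq]
    refine mul_le_mul_of_nonneg_right ?_ hw
    have e2 : (1 - T ^ 2) * (169 - T ^ 2) = (1 - T) * ((1 + T) * (169 - T ^ 2)) := by ring
    rw [e2, mul_comm (338 : ℝ)]
    refine mul_le_mul_of_nonneg_left ?_ h1T.le
    nlinarith [hT.2, hT0]
  rw [abs_le]
  constructor
  · nlinarith [mul_le_mul_of_nonneg_left hl (mul_nonneg (by norm_num : (0 : ℝ) ≤ 169) hy.le)]
  · nlinarith [mul_le_mul_of_nonneg_left hu (mul_nonneg (by norm_num : (0 : ℝ) ≤ 169) hy.le)]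

lemma ap_f3 : Ap SR wR f3c rD3 rq3 rE3 := by
  intro T hT
  have hT0 : (0 : ℝ) < T := by linarith [hT.1]
  have hyd : ∀ T ∈ Ioo (1 / 4 : ℝ) 1,
      HasDerivAt b13 (ev (derL r3L) T / (2 * ((13 : ℤ) : ℝ) * b13 T)) T := by
    intro x hx
    have hx0 : (0 : ℝ) < x := by linarith [hx.1]
    refine (hasDerivAt_b13 hx0 hx.2.le).congr_deriv ?_
    have := (b13_pos hx0 hx.2.le).ne'
    simp only [r3L, derL, derAux, ev_cons, ev_nil]
    push_cast
    field_simp
    ring
  have hL : ∀ T ∈ Ioo (1 / 4 : ℝ) 1,
      HasDerivAt (fun T => L13 T - L13 1) (-((1 : ℤ) : ℝ) / (T * b13 T)) T := by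
    intro x hx
    have hx0 : (0 : ℝ) < x := by linarith [hx.1]
    have := (hasDerivAt_L13 hx0 hx.2.le).sub_const (L13 1)
    push_cast
    exact this
  have hy2 : ∀ T ∈ Ioo (1 / 4 : ℝ) 1, (((13 : ℤ) : ℝ)) * b13 T ^ 2 = ev r3L T := by
    intro x hx
    have hx0 : (0 : ℝ) < x := by linarith [hx.1]
    rw [b13_sq hx0 hx.2.le, ev_r3L]; push_cast; ring
  have hyc : ContinuousOn b13 (Ioc (1 / 4) 1) := continuous_b13.continuousOn
  have hLc : ContinuousOn (fun T => L13 T - L13 1) (Ioc (1 / 4) 1) :=
    (continuousOn_L13.mono fun x hx => (by linarith [hx.1] : (0 : ℝ) < x)).sub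
      continuousOn_const
  have hyp : ∀ T ∈ Ioc (1 / 4 : ℝ) 1, 0 < b13 T := fun x hx =>
    b13_pos (by linarith [hx.1]) hx.2
  have hTc : T ∈ Ioc (1 / 4 : ℝ) 1 := ⟨hT.1, hT.2.le⟩
  have hz : ∀ E : ℤ, ev rq3 1 + E * (1 - 1) ^ 8 = 0 := by
    intro E
    have h1 : rq3.foldr (fun a s => a + s) 0 = 0 := by decide +kernel
    have h2 : ∀ l : List ℤ, ev l 1 = ((l.foldr (fun a s => a + s) 0 : ℤ) : ℝ) := by
      intro l
      induction l with
      | nil => simp
      | cons a l ih => simp only [ev_cons, List.foldr_cons, ih]; push_cast; ring
    rw [h2, h1]; norm_num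
  have hu : (rD3 : ℝ) * (b13 T * (L13 T - L13 1)) ≤ ev (upL rq3 rE3 8) T := by
    refine le_of_cG (L := fun T => L13 T - L13 1) (k0 := 13) (n := 1) (a := 1 / 4) (by norm_num)
      (by norm_num) hyp hy2 hyd hL hyc hLc (by simp) ?_ (fun x hx => ?_) hTc
    · rw [ev_upL, hz]
    have h1 := c3u
    have h2 := chk_of_mem h1 (by norm_num) hx
    rw [ev_smulL] at h2; push_cast at h2 ⊢; linarith
  have hl : ev (loL rq3 rE3 8) T ≤ (rD3 : ℝ) * (b13 T * (L13 T - L13 1)) := by
    refine ge_of_cG (L := fun T => L13 T - L13 1) (k0 := 13) (n := 1) (a := 1 / 4) (by norm_num)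
      (by norm_num) hyp hy2 hyd hL hyc hLc (by simp) ?_ (fun x hx => ?_) hTc
    · have := hz (-rE3)
      rw [ev_loL]
      push_cast at this
      linarith
    have h1 := c3l
    exact chk_of_mem h1 (by norm_num) hx
  rw [ev_upL] at hu
  rw [ev_loL] at hl
  unfold f3c wR
  rw [abs_le]
  constructor <;> linarith

lemma ap_f4 : Ap SR wR f4 rD4 rq4 rE4 := by
  intro T hT
  have hT0 : (0 : ℝ) < T := by linarith [hT.1]
  have hD : (0 : ℝ) < rD4 := by
    have : (0 : ℤ) < rD4 := by decide +kernel
    exact_mod_cast this
  have hf : f4 T ^ 2 = 7 / 169 * ev r3L T := by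
    unfold f4
    rw [mul_pow, Real.sq_sqrt (by norm_num), b13_sq hT0 hT.2.le, ev_r3L]; ring
  have hf0 : 0 ≤ f4 T := mul_nonneg (Real.sqrt_nonneg _) (Real.sqrt_nonneg _)
  have h1 := c4a
  have h2 := c4b
  have h3 := c4c
  have h1' := chk_of_mem h1 (by norm_num) hT
  have h2' := chk_of_mem h2 (by norm_num) hT
  have h3' := chk_of_mem h3 (by norm_num) hT
  rw [ev_addL, ev_smulL, ev_smulL, ev_mulL] at h1' h2'
  push_cast at h1' h2'
  have hu : (rD4 : ℝ) * f4 T ≤ ev (upL rq4 rE4 8) T := by
    refine (pow_le_pow_iff_left₀ (mul_nonneg hD.le hf0) h3' two_ne_zero).1 ?_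
    rw [mul_pow, hf, sq (ev (upL rq4 rE4 8) T)]
    linarith
  have hl : ev (loL rq4 rE4 8) T ≤ (rD4 : ℝ) * f4 T := by
    refine le_of_sq (mul_nonneg hD.le hf0) ?_
    rw [mul_pow, hf, sq (ev (loL rq4 rE4 8) T)]
    linarith
  rw [ev_upL] at hu
  rw [ev_loL] at hl
  unfold wR
  rw [abs_le]
  constructor <;> linarith

end Vale.Agent.P224.S13
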