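import Vale.Agent.P224.S13.Z13B
import Vale.Agent.P224.S13.Z13.Fr

/-!
The value terms and the rows of the certificate in dimension 13: regularity, exponents, flux, weight.
-/

namespace Vale.Agent.P224.S13.Z13

open Vale.Agent.P224.SP Vale.Agent.P224.UE Vale.Agent.P224.POS Vale.Agent.P224.PO
  Vale.Agent.P224.SO Set Filter Real
open scoped RealInnerProductSpace Topology

noncomputable section

/-- the tests of the free columns -/
theorem ok_lf : (lf.all VFz.ok) = true := by decide +kernel

lemma q_lf : (lf.all fun x => Nat.ble x.K.q 10) = true := by decide +kernel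

/-- the flux of the free columns -/
theorem flux_lf : flF lf = 0 := by decide +kernel

/-- the value terms -/
def lT : List GT := lGZ (lVE dl c0 DD kB kF lb lf)

/-- the regularity of all value terms -/
theorem reg_lT : ∀ t ∈ lT, t.Reg := reg ok_lf

/-- the exponents of all value terms -/
theorem ok_lT : ∀ t ∈ lT, t.ok 6 := ok

/-- the flux -/
theorem flux_lT : OT.fluxC 13 6 lT = 9483264 / 4826809 * √7 := flux q_lf flux_lf

/-- the weight on the diagonal -/
theorem w_lT {E : Type*} [NormedAddCommGroup E] [InnerProductSpace ℝ E] :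
    ∀ t ∈ lT, ∀ x N : E, ‖x‖ = 1 → ‖N‖ = 1 → ⟪x, N⟫ = 0 → t.w (dv x N x N 0) = 1 := by
  unfold lT
  rw [lGZ_eq]
  exact w_diag

/-- the rows -/
def sT : OT.SCert := lRZ (lRD dl c0 kB kF rb rf)

end

end Vale.Agent.P224.S13.Z13
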