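import Vale.Agent.P224.S13.Z13F0
import Vale.Agent.P224.S13.ZeroE

/-!
The certificate with a parameter in dimension 13 at the parameter zero.
-/

namespace Vale.Agent.P224.S13.Z13

open Vale.Agent.P224.SP Vale.Agent.P224.UE Vale.Agent.P224.POS Vale.Agent.P224.PO
  Vale.Agent.P224.SO Set Filter Real
open scoped RealInnerProductSpace Topology

noncomputable section

lemma pv0_eq : pv0 = piv0 := rfl

set_option maxRecDepth 100000 in
/-- the values at `T = 0` of the free columns -/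
theorem zero_lf : (lf.map fun x => (x.K, x.p.headD 0)) = F0 := rfl

lemma c0_eq : ((c0 : ℕ) : ℝ) = 3937288128577929216 := by norm_num [c0]

/-- **The inequality at `T = 0`.** -/
theorem h0_lT {E : Type*} [NormedAddCommGroup E] [InnerProductSpace ℝ E]
    (x N y w : E) (_hx : ‖x‖ = 1) (_hN : ‖N‖ = 1) (_hy : ‖y‖ = 1) (_hw : ‖w‖ = 1)
    (_hxN : ⟪x, N⟫ = 0) (_hyw : ⟪y, w⟫ = 0) :
    (lT.map fun t => t.φ 0 * t.Q (dv x N y w 0)).sum
      ≤ √13 * (1 + gamD * dv x N y w (0 : E) 3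
          - (rhoD * RF (-(9225/1456)) 96 (-((11 / 28) * √42)) (dv x N y w 0)
            + kapD * dv x N y w (0 : E) 0 ^ 3) + R00 (√42) ll kapD (dv x N y w 0)
          - ((567 / 10000) * ((⟪x, w⟫ - ⟪N, y⟫) / 2) ^ 2
            + (41 / 2000) * (⟪N, w⟫ - ⟪x, y⟫ - √42 / 42 * ((⟪x, w⟫ + ⟪N, y⟫) / 2)) ^ 2)) := by
  unfold lT
  rw [lGZ_eq, lVE_VE]
  refine h0_D ?_ ?_ x N y w
  · rw [List.map_map]
    exact zero_lb
  · rw [List.map_map]
    refine (zero_F (c0 := c0) lf).trans ?_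
    rw [zero_lf, c0_eq]

end

end Vale.Agent.P224.S13.Z13
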