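import Vale.Agent.P224.OT.Sharp

/-!
The certificate with a parameter in dimension 13 at the parameter zero: the static rows and the
identity with the resources.
-/

namespace Vale.Agent.P224.S13

open MeasureTheory Set Vale.Agent.P224.UE Vale.Agent.P224.PO
open scoped RealInnerProductSpace

noncomputable section

/-- the rows at the parameter zero; `r` is a square root of `42`, `l` the number
`log (24 / 7)`, `κ` the coefficient of `s ^ 3` -/
def S0 (r l κ : ℝ) : OT.SCert :=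
  [(⟨0, 0, 0, 0, 0, 0, 0, 0⟩, fun _ => (-30 * l + 37) * (-441 / 21970) + κ * (-181625 / 20049822)),
   (⟨0, 0, 0, 1, 0, 0, 0, 0⟩, fun _ => ((-30 * l + 37) * (361 / 130)) * (r * (1 / 42))),
   (⟨0, 1, 0, 0, 0, 0, 0, 0⟩, fun _ => (-30 * l + 37) * (-9044683 / 520520)),
   (⟨1, 0, 0, 1, 0, 0, 0, 0⟩, fun _ => ((-30 * l + 37) * (-3717 / 65)) * (1 / 42)),
   (⟨3, 0, 0, 0, 0, 0, 0, 0⟩, fun _ => (-30 * l + 37) * (-11249 / 27885)),
   (⟨0, 0, 0, 2, 0, 0, 0, 0⟩, fun _ => (κ * (-146657 / 514098)) * (1 / 42)),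
   (⟨0, 1, 0, 1, 0, 0, 0, 0⟩, fun _ => (κ * (18683 / 771147)) * (r * (1 / 42))),
   (⟨0, 2, 0, 0, 0, 0, 0, 0⟩, fun _ => κ * (-101407 / 1542294)),
   (⟨1, 0, 0, 0, 0, 0, 0, 0⟩, fun _ => (κ * (16184 / 10024911)) * (r * (1 / 42))),
   (⟨1, 0, 0, 2, 0, 0, 0, 0⟩, fun _ => (κ * (-5831 / 85683)) * (r * (1 / 1764))),
   (⟨1, 1, 0, 1, 0, 0, 0, 0⟩, fun _ => (κ * (49441 / 85683)) * (1 / 42)),
   (⟨1, 2, 0, 0, 0, 0, 0, 0⟩, fun _ => (κ * (-17437 / 771147)) * (r * (1 / 42))),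
   (⟨3, 1, 0, 0, 0, 0, 0, 0⟩, fun _ => κ * (1009 / 514098))]

/-- the symmetrised rows at the parameter zero -/
def R00 (r l κ : ℝ) (d : R9) : ℝ :=
  (OT.Rs 13 (S0 r l κ) 0 d + OT.Rs 13 (S0 r l κ) 0 (sw9 d)) / 2

/-- the rows with the special value at the parameter zero -/
def RoT (r l κ : ℝ) (S : OT.SCert) (T : ℝ) (d : R9) : ℝ :=
  if T = 0 then R00 r l κ d else (OT.Rs 13 S T d + OT.Rs 13 S T (sw9 d)) / 2

lemma RoT_zero (r l κ : ℝ) (S : OT.SCert) (d : R9) : RoT r l κ S 0 d = R00 r l κ d :=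
  if_pos rfl

lemma RoT_pos (r l κ : ℝ) (S : OT.SCert) {T : ℝ} (hT : 0 < T) (d : R9) :
    RoT r l κ S T d = (OT.Rs 13 S T d + OT.Rs 13 S T (sw9 d)) / 2 :=
  if_neg hT.ne'

/-- the static rows are null -/
theorem null_R00 {X : Type*} [MeasurableSpace X] {E : Type*} [NormedAddCommGroup E]
    [InnerProductSpace ℝ E] [MeasurableSpace E] [BorelSpace E] [SecondCountableTopology E]
    {μ : Measure X} [IsFiniteMeasure μ] {p n : X → E} (hG : TwoG μ 13 p n) (r l κ : ℝ) :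
    Null μ p n 0 (R00 r l κ) := by
  have e : R00 r l κ = fun d => (OT.Rs 13 (S0 r l κ) 0 d
      + OT.Rs 13 (S0 r l κ) 0 (sw9 d)) / 2 := rfl
  rw [e]
  exact OT.null_sym hG _ ⟨le_rfl, one_pos⟩

/-- the rows are null -/
theorem null_RoT {X : Type*} [MeasurableSpace X] {E : Type*} [NormedAddCommGroup E]
    [InnerProductSpace ℝ E] [MeasurableSpace E] [BorelSpace E] [SecondCountableTopology E]
    {μ : Measure X} [IsFiniteMeasure μ] {p n : X → E} (hG : TwoG μ 13 p n) (r l κ : ℝ)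
    (S : OT.SCert) {T : ℝ} (hT : T ∈ Ico (0 : ℝ) 1) : Null μ p n 0 (RoT r l κ S T) := by
  rcases hT.1.eq_or_lt with h | h
  · subst h
    have e : RoT r l κ S 0 = R00 r l κ := by
      funext d
      exact RoT_zero _ _ _ _ _
    rw [e]
    exact null_R00 hG r l κ
  · have e : RoT r l κ S T = fun d => (OT.Rs 13 S T d + OT.Rs 13 S T (sw9 d)) / 2 := by
      funext d
      exact RoT_pos _ _ _ _ h _
    rw [e]
    exact OT.null_sym hG _ hT

/-- the value part at the parameter zero (the functions of the base) -/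
def G00 (r l K : ℝ) (s t p c : ℝ) : ℝ :=
  ((-106761734748168080724 + 87461237637720306360 * l - 0 * K) / 1107125005020297120) * (1) +
    ((-5344662339324316008 + 4333510004857553520 * l - 0 * K) / 1107125005020297120) * ((1 - s) ^ 2) +
    ((13172584029607821312 + (-8537785945116180480) * l - (-17075571890232360960) * K) / 1107125005020297120) * (c) +
    ((-1187702742072070224 + 963002223301678560 * l - 0 * K) / 1107125005020297120) * (c * (r / 42 * (t + p) / 2)) +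
    ((-1018030921776060192 + 825430477115724480 * l - 0 * K) / 1107125005020297120) * (c * (r / 42 * (t + p) / 2)) +
    ((19803161669938662879864 + (-16056617570220537470160) * l - 0 * K) / 1107125005020297120) * (((t ^ 2 + p ^ 2) / 84)) +
    ((31829245784789409932976 + (-25807496582261683729440) * l - 0 * K) / 1107125005020297120) * (((t ^ 2 + p ^ 2) / 84)) +
    ((20024668231335103976640 + (-16236217484866300521600) * l - 0 * K) / 1107125005020297120) * (((t ^ 2 + p ^ 2) / 84))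

/-- **The identity at the parameter zero.** -/
theorem zero_id {r : ℝ} (hr : r ^ 2 = 42) (l K κ : ℝ) (d : R9) :
    1 + ((110592 / 9295) + (-14336 / 1859) * l + (28672 / 1859) * K + (1009 / 514098) * κ) * d 3
      - ((416 / 165) * (-30 * l + 37) * RF (-(9225/1456)) 96 (-((11 / 28) * r)) d + κ * d 0 ^ 3)
      + R00 r l κ d
      = G00 r l K (d 0) (d 1) (d 2) (d 3)
        + (-30 * l + 37) * ((177 / 130) * (d 3 - d 0 - r / 84 * (d 1 + d 2)) ^ 2
          - (627997 / 1430) * (r / 84 * (d 2 - d 1)) ^ 2)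
        + κ * ((1666 / 257049) * ((r / 84 * (d 2 - d 1)) ^ 2 * (d 3 - d 0 - r / 84 * (d 1 + d 2))) +
          (833 / 257049) * ((r / 84 * (d 1 + d 2)) * (d 3 - d 0 - r / 84 * (d 1 + d 2)) ^ 2) +
          (80801 / 19773) * ((r / 84 * (d 1 + d 2)) * (r / 84 * (d 2 - d 1)) ^ 2) +
          (-7063 / 514098) * (d 0 * (d 3 - d 0 - r / 84 * (d 1 + d 2)) ^ 2) +
          (30415 / 13182) * (d 0 * (r / 84 * (d 2 - d 1)) ^ 2)) := by
  have e0 : sw9 d 0 = d 0 := rfl
  have e1 : sw9 d 1 = d 2 := rfl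
  have e2 : sw9 d 2 = d 1 := rfl
  have e3 : sw9 d 3 = d 3 := rfl
  obtain ⟨s, hs⟩ : ∃ s, d 0 = s := ⟨_, rfl⟩
  obtain ⟨t, ht⟩ : ∃ t, d 1 = t := ⟨_, rfl⟩
  obtain ⟨p, hp⟩ : ∃ p, d 2 = p := ⟨_, rfl⟩
  obtain ⟨c, hc⟩ : ∃ c, d 3 = c := ⟨_, rfl⟩
  have k0 : ∀ q s, SM2.ker 0 q s = 1 := by
    intro q s
    simp [SM2.ker]
  simp only [R00, S0, OT.Rs, OT.STerm.R, rG, rowE, sk, sk', RF, G00, List.map_cons, List.map_nil,
    List.sum_cons, List.sum_nil, e0, e1, e2, e3, hs, ht, hp, hc, k0, pow_zero, pow_one, one_mul,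
    mul_one, Nat.cast_zero, Nat.cast_one, Nat.cast_ofNat, zero_mul, mul_zero, add_zero, zero_add,
    Nat.sub_self, Nat.add_one_sub_one, Nat.reduceSub]
  linear_combination (
    (2316385 / 1009008) * p ^ 2 + (-313025 / 168168) * p ^ 2 * l + (-85 / 12338352) * p ^ 3 *
    r * κ + (-59459 / 12870) * t * p + (1607 / 429) * t * p * l + (17 / 4626882) * t * p * c *
    κ + (2669 / 388658088) * t * p ^ 2 * r * κ + (2316385 / 1009008) * t ^ 2 + (-313025 /
    168168) * t ^ 2 * l + (2669 / 388658088) * t ^ 2 * p * r * κ + (-85 / 12338352) * t ^ 3 *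
    r * κ + (-84223 / 259105392) * s * p ^ 2 * κ + (1009 / 1542294) * s * t * p * κ + (-84223
    / 259105392) * s * t ^ 2 * κ) * hr

end

end Vale.Agent.P224.S13
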