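import Vale.Agent.P224.S13.Zero
import Vale.Agent.P224.S13.AsmE

/-!
The certificate with a parameter in dimension 13 at the parameter zero: the inequality.
-/

namespace Vale.Agent.P224.S13

open Vale.Agent.P224.UE Vale.Agent.P224.POS Vale.Agent.P224.PO Vale.Agent.P224.SO Set
open scoped RealInnerProductSpace

noncomputable section

/-- the value of a column polynomial -/
lemma ev_VKQ (c : VK) (T : ℝ) (d : R9) : PE.ev (vT T (d 0) (d 1) (d 2) (d 3)) c.Q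
    = (1 - d 0) ^ c.a * d 3 ^ c.e
      * ((d 1 ^ c.i * d 2 ^ c.j + d 1 ^ c.j * d 2 ^ c.i) / √42 ^ (c.i + c.j)) := by
  have h6 : √(42 : ℝ) ≠ 0 := by positivity
  set f := vT T (d 0) (d 1) (d 2) (d 3) with hf
  have et : PE.ev f ptt = d 1 / √42 := by
    rw [eq_div_iff h6, mul_comm]
    exact ev_ptt _ _ _ _ _
  have ep : PE.ev f ppp = d 2 / √42 := by
    rw [eq_div_iff h6, mul_comm]
    exact ev_ppp _ _ _ _ _
  have ec : PE.ev f pc = d 3 := ev_pc _ _ _ _ _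
  have e0 : f 0 = d 0 := rfl
  simp only [VK.Q, PE.ev_mul, PE.ev_add, PE.ev_pow, PE.ev_sub, PE.ev_c, PE.ev_v, et, ep, ec, e0,
    Int.cast_one, div_pow]
  rw [pow_add]
  field_simp

lemma AT_zero : AT 0 = 13 := by
  unfold AT
  norm_num

/-- the value part at the parameter zero -/
theorem sum_phi0 (V : List VE) (d : R9) : ((lG V).map fun t => t.φ 0 * t.Q d).sum
    = √13 / 2 * (V.map fun x => x.g 0 * PE.ev (vT 0 (d 0) (d 1) (d 2) (d 3)) x.K.Q).sum := by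
  induction V with
  | nil => simp [lG]
  | cons x V ih =>
    have e : lG (x :: V) = x.K.gts x.g x.g' x.k x.lim ++ lG V := rfl
    rw [e, List.map_append, List.sum_append, ih, List.map_cons (f := fun x : VE =>
      x.g 0 * PE.ev (vT 0 (d 0) (d 1) (d 2) (d 3)) x.K.Q), List.sum_cons, ev_VKQ]
    simp only [VK.gts, List.map_cons, List.map_nil, List.sum_cons, List.sum_nil, GT.Q, VK.phi,
      AT_zero, add_zero]
    have h6p : √(42 : ℝ) ^ (x.K.i + x.K.j) ≠ 0 := pow_ne_zero _ (by positivity)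
    field_simp

/-- the exponents and the values at zero of the functions of the base: coefficients of `1`, `l / 2`
and `-K` times 1107125005020297120 -/
def piv0 : List (VK × ℤ × ℤ × ℤ) :=
  [(⟨7, 0, 0, 0, 0⟩, -106761734748168080724, 174922475275440612720, 0),
   (⟨8, 2, 0, 0, 0⟩, -5344662339324316008, 8667020009715107040, 0),
   (⟨7, 0, 0, 0, 1⟩, 13172584029607821312, -17075571890232360960, -17075571890232360960),
   (⟨6, 0, 1, 0, 1⟩, -1187702742072070224, 1926004446603357120, 0),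
   (⟨7, 0, 1, 0, 1⟩, -1018030921776060192, 1650860954231448960, 0),
   (⟨6, 0, 2, 0, 0⟩, 19803161669938662879864, -32113235140441074940320, 0),
   (⟨7, 0, 2, 0, 0⟩, 31829245784789409932976, -51614993164523367458880, 0),
   (⟨8, 0, 2, 0, 0⟩, 20024668231335103976640, -32472434969732601043200, 0),
   (⟨7, 0, 2, 0, 1⟩, 0, 0, 0),
   (⟨8, 0, 2, 0, 1⟩, 0, 0, 0)]

/-- the values at zero of the functions of the base -/
def pivV (l K : ℝ) : List (VK × ℝ) := piv0.map fun y =>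
  (y.1, ((y.2.1 : ℝ) + (y.2.2.1 : ℝ) / 2 * l - (y.2.2.2 : ℝ) * K) / 1107125005020297120)

lemma sum_piv (l K : ℝ) (d : R9) :
    ((pivV l K).map fun x => x.2 * PE.ev (vT 0 (d 0) (d 1) (d 2) (d 3)) x.1.Q).sum
      = 2 * G00 (√42) l K (d 0) (d 1) (d 2) (d 3) := by
  have h6 : √(42 : ℝ) ≠ 0 := by positivity
  have h66 : √(42 : ℝ) ^ 2 = 42 := Real.sq_sqrt (by norm_num)
  have h61 : (√(42 : ℝ))⁻¹ = √42 / 42 := by
    field_simp
    exact h66.symm
  simp only [pivV, piv0, List.map_cons, List.map_nil, List.sum_cons, List.sum_nil, ev_VKQ, G00,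
    pow_zero, pow_one, one_mul, mul_one, add_zero, zero_add, zero_mul, h66, div_eq_mul_inv, h61]
  push_cast
  ring

/-- **The inequality at the parameter zero.** -/
theorem h0_of {l K κ X1 X2 ℓu ℓv D0 : ℝ} (h1 : X1 ≤ (-30 * l + 37)) (h2 : (-30 * l + 37) ≤ X2)
    {Vp Vf : List VE} (hp : (Vp.map fun x => (x.K, x.g 0)) = pivV l K)
    {F : List (VK × ℤ)} (hf : (Vf.map fun x => (x.K, x.g 0)) = F.map fun y => (y.1, y.2 / D0))
    {E : Type*} [NormedAddCommGroup E] [InnerProductSpace ℝ E]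
    (hQ : ∀ f : ℕ → ℝ, (∀ i, 5 ≤ i → f i = 0) →
      0 ≤ X1 * ((177 / 130) * f 3 ^ 2) - X2 * ((627997 / 1430) * f 2 ^ 2)
        + κ * ((1666 / 257049) * (f 2 ^ 2 * f 3) +
          (833 / 257049) * (f 1 * f 3 ^ 2) +
          (80801 / 19773) * (f 1 * f 2 ^ 2) +
          (-7063 / 514098) * (f 0 * f 3 ^ 2) +
          (30415 / 13182) * (f 0 * f 2 ^ 2))
        - (42 * ℓu * f 2 ^ 2 + ℓv * f 3 ^ 2)
        - 1 / (2 * D0) * (F.map fun y => (y.2 : ℝ) * PE.ev f y.1.Q).sum)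
    (x N y w : E) :
    ((lG (Vp ++ Vf)).map fun t => t.φ 0 * t.Q (dv x N y w 0)).sum
      ≤ √13 * (1 + ((110592 / 9295) + (-14336 / 1859) * l + (28672 / 1859) * K + (1009 / 514098) * κ) * dv x N y w (0 : E) 3
          - ((416 / 165) * (-30 * l + 37) * RF (-(9225/1456)) 96 (-((11 / 28) * √42)) (dv x N y w 0)
            + κ * dv x N y w (0 : E) 0 ^ 3) + R00 (√42) l κ (dv x N y w 0)
          - (ℓu * ((⟪x, w⟫ - ⟪N, y⟫) / 2) ^ 2
            + ℓv * (⟪N, w⟫ - ⟪x, y⟫ - √42 / 42 * ((⟪x, w⟫ + ⟪N, y⟫) / 2)) ^ 2)) := by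
  have h66 : √(42 : ℝ) ^ 2 = 42 := Real.sq_sqrt (by norm_num)
  have h6 : √(42 : ℝ) ≠ 0 := by positivity
  set d := dv x N y w (0 : E) with hd
  have d0 : d 0 = ⟪x, y⟫ := rfl
  have d1 : d 1 = ⟪x, w⟫ := rfl
  have d2 : d 2 = ⟪N, y⟫ := rfl
  have d3 : d 3 = ⟪N, w⟫ := rfl
  have hz := zero_id h66 l K κ d
  rw [sum_phi0, List.map_append, List.sum_append]
  have ep : (Vp.map fun x => x.g 0 * PE.ev (vT 0 (d 0) (d 1) (d 2) (d 3)) x.K.Q).sum
      = 2 * G00 (√42) l K (d 0) (d 1) (d 2) (d 3) := by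
    rw [← sum_piv, ← hp, List.map_map]
    rfl
  have ef : (Vf.map fun x => x.g 0 * PE.ev (vT 0 (d 0) (d 1) (d 2) (d 3)) x.K.Q).sum
      = 1 / D0 * (F.map fun y => (y.2 : ℝ) * PE.ev (vT 0 (d 0) (d 1) (d 2) (d 3)) y.1.Q).sum := by
    have e1 : (Vf.map fun x => x.g 0 * PE.ev (vT 0 (d 0) (d 1) (d 2) (d 3)) x.K.Q)
        = (Vf.map fun x => (x.K, x.g 0)).map fun z =>
          z.2 * PE.ev (vT 0 (d 0) (d 1) (d 2) (d 3)) z.1.Q := by
      rw [List.map_map]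
      rfl
    rw [e1, hf, List.map_map, ← List.sum_map_mul_left]
    congr 1
    refine List.map_congr_left fun z _ => ?_
    simp only [Function.comp_apply]
    ring
  rw [ep, ef]
  have h5 := hQ (vT 0 (d 0) (d 1) (d 2) (d 3)) fun i hi => vT_ge _ _ _ _ _ hi
  have f0 : vT 0 (d 0) (d 1) (d 2) (d 3) 0 = d 0 := rfl
  have h12 : ∀ z : ℝ, z / (2 * √42) = √42 / 84 * z := by
    intro z
    field_simp
    rw [h66]
    ring
  have f1 : vT 0 (d 0) (d 1) (d 2) (d 3) 1 = √42 / 84 * (d 1 + d 2) := h12 _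
  have f2 : vT 0 (d 0) (d 1) (d 2) (d 3) 2 = √42 / 84 * (d 2 - d 1) := h12 _
  have f3 : vT 0 (d 0) (d 1) (d 2) (d 3) 3 = d 3 - d 0 - √42 / 84 * (d 1 + d 2) := by
    have e : vT 0 (d 0) (d 1) (d 2) (d 3) 3 = d 3 - d 0 - (d 1 + d 2) / (2 * √42) := rfl
    rw [e, h12]
  rw [f0, f1, f2, f3] at h5
  rw [← d0, ← d1, ← d2, ← d3]
  have ev3 : d 3 - d 0 - √42 / 42 * ((d 1 + d 2) / 2)
      = d 3 - d 0 - √42 / 84 * (d 1 + d 2) := by ring
  rw [ev3]
  set v := d 3 - d 0 - √42 / 84 * (d 1 + d 2) with hv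
  set u := √42 / 84 * (d 2 - d 1) with hu
  have hu2 : ℓu * ((d 1 - d 2) / 2) ^ 2 = 42 * ℓu * u ^ 2 := by
    rw [hu]
    linear_combination (-(42 * ℓu * (d 2 - d 1) ^ 2 / (84 ^ 2))) * h66
  have h7 : X1 * ((177 / 130) * v ^ 2) ≤ (-30 * l + 37) * ((177 / 130) * v ^ 2) :=
    mul_le_mul_of_nonneg_right h1 (by positivity)
  have h8 : (-30 * l + 37) * ((627997 / 1430) * u ^ 2) ≤ X2 * ((627997 / 1430) * u ^ 2) :=
    mul_le_mul_of_nonneg_right h2 (by positivity)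
  have h9 : (0 : ℝ) ≤ √13 := Real.sqrt_nonneg _
  rw [hu2]
  have key : G00 (√42) l K (d 0) (d 1) (d 2) (d 3) + 1 / (2 * D0) * (F.map fun y =>
      (y.2 : ℝ) * PE.ev (vT 0 (d 0) (d 1) (d 2) (d 3)) y.1.Q).sum
      ≤ 1 + ((110592 / 9295) + (-14336 / 1859) * l + (28672 / 1859) * K + (1009 / 514098) * κ) * d 3
          - ((416 / 165) * (-30 * l + 37) * RF (-(9225/1456)) 96 (-((11 / 28) * √42)) d
            + κ * d 0 ^ 3) + R00 (√42) l κ d - (42 * ℓu * u ^ 2 + ℓv * v ^ 2) := by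
    rw [hz]
    linarith
  have e3 : √13 / 2 * (2 * G00 (√42) l K (d 0) (d 1) (d 2) (d 3) + 1 / D0 * (F.map fun y =>
      (y.2 : ℝ) * PE.ev (vT 0 (d 0) (d 1) (d 2) (d 3)) y.1.Q).sum)
      = √13 * (G00 (√42) l K (d 0) (d 1) (d 2) (d 3) + 1 / (2 * D0) * (F.map fun y =>
      (y.2 : ℝ) * PE.ev (vT 0 (d 0) (d 1) (d 2) (d 3)) y.1.Q).sum) := by
    rw [one_div, one_div, mul_inv]
    ring
  rw [e3]
  exact mul_le_mul_of_nonneg_left key h9

end

end Vale.Agent.P224.S13
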